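import Mathlib

/-!
# The dimension lemma for pairs of subspaces
-/

namespace Vale.Agent.P040

open Polynomial Module

/-- bidegree less than `e` in both variables -/
def Bd (e : ℕ) (F : Polynomial (Polynomial ℝ)) : Prop :=
  ∀ k j, (e ≤ k ∨ e ≤ j) → (F.coeff k).coeff j = 0

theorem evalEval_diag (x : ℝ) (F : Polynomial (Polynomial ℝ)) :
    F.evalEval x x = (F.eval X).eval x := by
  induction F using Polynomial.induction_on' with
  | add p q hp hq => simp [evalEval_add, hp, hq]
  | monomial n a => simp [evalEval]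

theorem Bd.diag_degree {e : ℕ} {F : Polynomial (Polynomial ℝ)} (h : Bd (e + 1) F) :
    (F.eval X).degree < ((2 * e + 1 : ℕ) : WithBot ℕ) := by
  have h1 : F.natDegree < e + 1 := by
    refine Nat.lt_succ_of_le (natDegree_le_iff_coeff_eq_zero.2 fun k hk => ?_)
    ext j
    exact h k j (Or.inl hk)
  have h2 : ∀ k, (F.coeff k).natDegree ≤ e := fun k =>
    natDegree_le_iff_coeff_eq_zero.2 fun j hj => h k j (Or.inr hj)
  have h3 : (F.eval X).natDegree ≤ 2 * e := by
    rw [eval_eq_sum_range' h1]
    refine natDegree_sum_le_of_forall_le _ _ fun k hk => ?_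
    have hk' : k ≤ e := Nat.lt_succ_iff.1 (Finset.mem_range.1 hk)
    refine natDegree_mul_le.trans ?_
    have := h2 k
    rw [natDegree_X_pow]
    omega
  exact lt_of_le_of_lt degree_le_natDegree (by exact_mod_cast Nat.lt_succ_of_le h3)

theorem Bd.div {e : ℕ} {G : Polynomial (Polynomial ℝ)} (h : Bd (e + 1) ((X - C X) * G)) :
    Bd e G := by
  have hs : ∀ k, ((X - C X) * G).coeff (k + 1) = G.coeff k - X * G.coeff (k + 1) := by
    intro k
    rw [sub_mul, coeff_sub, coeff_X_mul, coeff_C_mul]
  have h0 : ((X - C X) * G).coeff 0 = - (X * G.coeff 0) := by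
    rw [sub_mul, coeff_sub, coeff_X_mul_zero, coeff_C_mul, zero_sub]
  have h1 : ((X - C X) * G).degree < ((e + 1 : ℕ) : WithBot ℕ) := by
    rw [degree_lt_iff_coeff_zero]
    intro k hk
    ext j
    exact h k j (Or.inl hk)
  have h2 : G.degree < (e : WithBot ℕ) := by
    rw [degree_mul, degree_X_sub_C, add_comm] at h1
    push_cast at h1
    exact (WithBot.add_lt_add_iff_right WithBot.one_ne_bot).1 h1
  rw [degree_lt_iff_coeff_zero] at h2
  have h3 : ∀ k j, e ≤ j → (G.coeff k).coeff j = 0 := by
    intro k
    induction k with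
    | zero =>
      intro j hj
      have := h 0 (j + 1) (Or.inr (by omega))
      rw [h0, coeff_neg, coeff_X_mul] at this
      simpa using this
    | succ k ih =>
      intro j hj
      have := h (k + 1) (j + 1) (Or.inr (by omega))
      rw [hs, coeff_sub, coeff_X_mul, ih (j + 1) (by omega)] at this
      simpa using this
  rintro k j (hk | hj)
  · rw [h2 k hk, coeff_zero]
  · exact h3 k j hj

theorem continuous_evalEval_left (y : ℝ) (F : Polynomial (Polynomial ℝ)) :
    Continuous fun x : ℝ => F.evalEval x y := (F.eval (C y)).continuous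

theorem continuous_evalEval_right (x : ℝ) (F : Polynomial (Polynomial ℝ)) :
    Continuous fun y : ℝ => F.evalEval x y := by
  simp only [← map_evalRingHom_eval]
  exact Polynomial.continuous _

theorem mem_of_smul_mem {ι : Type} [Fintype ι] (L : Submodule ℝ (ι → ℝ)) {g : ℝ → ι → ℝ}
    (hg : Continuous g) {c : ℝ → ℝ} {t : ℝ} (hc : ∀ y, y ≠ t → c y ≠ 0)
    (h : ∀ y, c y • g y ∈ L) (y : ℝ) : g y ∈ L := by
  have h1 : IsClosed (g ⁻¹' L) := L.closed_of_finiteDimensional.preimage hg
  have h2 : ({t}ᶜ : Set ℝ) ⊆ g ⁻¹' L := fun y hy => (L.smul_mem_iff (hc y hy)).1 (h y)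
  have h3 := closure_minimal h2 h1
  rw [(dense_compl_singleton t).closure_eq] at h3
  exact h3 (Set.mem_univ y)

section

variable {ι : Type} [Fintype ι] {n : ℕ} (L M : Fin n → Submodule ℝ (ι → ℝ))

/-- vector valued polynomials of bounded bidegree with rows in `L` and columns in `M` -/
def VV (e : ℕ) : Submodule ℝ (ι → Polynomial (Polynomial ℝ)) where
  carrier := {F | (∀ i, Bd e (F i)) ∧
    (∀ (w : Fin n) (y : ℝ), (fun i => (F i).evalEval ((w : ℕ) : ℝ) y) ∈ L w) ∧
    ∀ (w : Fin n) (x : ℝ), (fun i => (F i).evalEval x ((w : ℕ) : ℝ)) ∈ M w}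
  zero_mem' := ⟨fun i k j _ => by simp, fun w y => by
    simp only [Pi.zero_apply, evalEval_zero]; exact (L w).zero_mem,
    fun w x => by simp only [Pi.zero_apply, evalEval_zero]; exact (M w).zero_mem⟩
  add_mem' := by
    rintro F G ⟨h1, h2, h3⟩ ⟨h4, h5, h6⟩
    refine ⟨fun i k j h => by simp [h1 i k j h, h4 i k j h], fun w y => ?_, fun w x => ?_⟩
    · simp only [Pi.add_apply, evalEval_add]; exact (L w).add_mem (h2 w y) (h5 w y)
    · simp only [Pi.add_apply, evalEval_add]; exact (M w).add_mem (h3 w x) (h6 w x)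
  smul_mem' := by
    rintro c F ⟨h1, h2, h3⟩
    refine ⟨fun i k j h => by simp [h1 i k j h], fun w y => ?_, fun w x => ?_⟩
    · simp only [Pi.smul_apply, evalEval_smul]; exact (L w).smul_mem c (h2 w y)
    · simp only [Pi.smul_apply, evalEval_smul]; exact (M w).smul_mem c (h3 w x)

/-- the number of conditions -/
def cost (n : ℕ) : ℕ → ℕ
  | 0 => 0
  | e + 1 => cost n e + (2 * e + 1 - n)

theorem cost_le (n e : ℕ) : 4 * cost n e ≤ (2 * e - n) ^ 2 := by
  induction e with
  | zero => simp [cost]
  | succ e ih =>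
    rw [cost]
    rcases le_or_gt n (2 * e) with h | h
    · obtain ⟨j, hj⟩ := Nat.exists_eq_add_of_le h
      have e1 : 2 * e - n = j := by omega
      have e2 : 2 * e + 1 - n = j + 1 := by omega
      have e3 : 2 * (e + 1) - n = j + 2 := by omega
      rw [e1] at ih
      rw [e2, e3]
      nlinarith
    · have e1 : 2 * e - n = 0 := by omega
      have e2 : 2 * e + 1 - n = 0 := by omega
      rw [e1] at ih
      rw [e2]
      have : cost n e = 0 := by simpa using ih
      simp [this]

theorem rank_VV (hLM : ∀ w, Disjoint (L w) (M w)) (e : ℕ) :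
    Module.rank ℝ (VV L M e) ≤ ((cost n e * Fintype.card ι : ℕ) : Cardinal) := by
  induction e with
  | zero =>
    have : VV L M 0 = ⊥ := by
      rw [eq_bot_iff]
      rintro F ⟨h1, -⟩
      rw [Submodule.mem_bot]
      ext i k j
      simpa using h1 i k j (Or.inl (Nat.zero_le _))
    rw [this]
    simp
  | succ e ih =>
    let Φ : VV L M (e + 1) →ₗ[ℝ] (Fin (2 * e + 1 - n) × ι → ℝ) :=
      { toFun := fun F x => (F.1 x.2).evalEval ((n + x.1 : ℕ) : ℝ) ((n + x.1 : ℕ) : ℝ)
        map_add' := fun F G => by ext x; simp [evalEval_add]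
        map_smul' := fun c F => by ext x; simp [evalEval_smul] }
    let Ψ : VV L M e →ₗ[ℝ] (ι → Polynomial (Polynomial ℝ)) :=
      { toFun := fun G i => (X - C X) * G.1 i
        map_add' := fun F G => by ext1 i; simp [mul_add]
        map_smul' := fun c F => by ext1 i; simp }
    have h1 : (LinearMap.ker Φ).map (VV L M (e + 1)).subtype ≤ LinearMap.range Ψ := by
      rintro F ⟨⟨F', hF⟩, hker, rfl⟩
      obtain ⟨hb, hL, hM⟩ := hF
      have hz : ∀ i, (F' i).eval X = 0 := by
        intro i
        refine eq_zero_of_degree_lt_of_eval_index_eq_zero (v := fun k : ℕ => (k : ℝ))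
          (Finset.range (max n (2 * e + 1))) (fun a _ b _ h => Nat.cast_injective h) ?_ ?_
        · refine (hb i).diag_degree.trans_le ?_
          rw [Finset.card_range]
          exact_mod_cast le_max_right _ _
        · intro k hk
          rw [← evalEval_diag]
          rcases lt_or_ge k n with h | h
          · have := (Submodule.disjoint_def.1 (hLM ⟨k, h⟩)) _ (hL ⟨k, h⟩ k) (hM ⟨k, h⟩ k)
            exact congrFun this i
          · have hk' := Finset.mem_range.1 hk
            have := congrFun (LinearMap.mem_ker.1 hker) (⟨k - n, by omega⟩, i)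
            simp only [Φ, LinearMap.coe_mk, AddHom.coe_mk, Pi.zero_apply] at this
            rwa [show n + (k - n) = k by omega] at this
      have hG : ∀ i, (X - C X) * (F' i /ₘ (X - C X)) = F' i := fun i =>
        mul_divByMonic_eq_iff_isRoot.2 (hz i)
      have hev : ∀ i x y, (F' i).evalEval x y = (y - x) * (F' i /ₘ (X - C X)).evalEval x y := by
        intro i x y
        conv_lhs => rw [← hG i]
        rw [evalEval_mul, evalEval_sub, evalEval_X, evalEval_C, eval_X]
      refine ⟨⟨fun i => F' i /ₘ (X - C X), fun i => Bd.div (by rw [hG]; exact hb i),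
        fun w => ?_, fun w => ?_⟩, ?_⟩
      · refine mem_of_smul_mem (L w) (continuous_pi fun i => continuous_evalEval_right _ _)
          (c := fun y => y - ((w : ℕ) : ℝ)) (t := ((w : ℕ) : ℝ))
          (fun y hy => sub_ne_zero.2 hy) fun y => ?_
        have := hL w y
        simp only [hev] at this
        exact this
      · refine mem_of_smul_mem (M w) (continuous_pi fun i => continuous_evalEval_left _ _)
          (c := fun x => ((w : ℕ) : ℝ) - x) (t := ((w : ℕ) : ℝ))
          (fun y hy => sub_ne_zero.2 hy.symm) fun y => ?_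
        have := hM w y
        simp only [hev] at this
        exact this
      · ext1 i
        exact hG i
    have h2 : Module.rank ℝ (LinearMap.ker Φ) ≤ Module.rank ℝ (VV L M e) := by
      rw [← rank_map_eq (VV L M (e + 1)).injective_subtype]
      exact (Submodule.rank_mono h1).trans (rank_range_le _)
    have h3 : Module.rank ℝ (LinearMap.range Φ) ≤
        (((2 * e + 1 - n) * Fintype.card ι : ℕ) : Cardinal) := by
      refine (Submodule.rank_le _).trans ?_
      rw [rank_fun']
      simp
    have h4 := LinearMap.rank_range_add_rank_ker (R := ℝ) (M := VV L M (e + 1))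
      (M₁ := Fin (2 * e + 1 - n) × ι → ℝ) Φ
    rw [← h4, cost, add_mul, add_comm]
    push_cast at h2 h3 ih ⊢
    exact add_le_add (h2.trans ih) h3

theorem nside_coord (hLM : ∀ w, Disjoint (L w) (M w)) :
    ∑ x : {x : Fin n × Fin n // x.1 ≠ x.2}, finrank ℝ ↥(L x.1.1 ⊓ M x.1.2) ≤
      cost n n * Fintype.card ι := by
  classical
  let v : Fin n → ℝ := fun w => ((w : ℕ) : ℝ)
  have hv : Set.InjOn v (Finset.univ : Finset (Fin n)) := fun a _ b _ h =>
    Fin.ext (by simpa [v] using h)
  let ℓ : Fin n → Polynomial ℝ := fun w => Lagrange.basis Finset.univ v w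
  have hℓ : ∀ w k, n ≤ k → (ℓ w).coeff k = 0 := by
    intro w k hk
    refine coeff_eq_zero_of_natDegree_lt ?_
    rw [Lagrange.natDegree_basis hv (Finset.mem_univ w), Finset.card_fin]
    have := w.pos
    omega
  have hℓv : ∀ w w', (ℓ w).eval (v w') = if w = w' then 1 else 0 := by
    intro w w'
    split_ifs with h
    · subst h; exact Lagrange.eval_basis_self hv (Finset.mem_univ _)
    · exact Lagrange.eval_basis_of_ne h (Finset.mem_univ _)
  let Θ : ((x : {x : Fin n × Fin n // x.1 ≠ x.2}) → ↥(L x.1.1 ⊓ M x.1.2)) →ₗ[ℝ]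
      (ι → Polynomial (Polynomial ℝ)) :=
    { toFun := fun z i => ∑ x, (z x).1 i • (C (ℓ x.1.1) * (ℓ x.1.2).map C)
      map_add' := fun F G => by ext1 i; simp [add_smul, Finset.sum_add_distrib]
      map_smul' := fun c F => by ext1 i; simp [Finset.smul_sum, mul_smul] }
  have hev : ∀ z a b, (fun i => (Θ z i).evalEval a b) =
      ∑ x, ((ℓ x.1.1).eval a * (ℓ x.1.2).eval b) • (z x).1 := by
    intro z a b
    ext i
    simp only [Θ, LinearMap.coe_mk, AddHom.coe_mk, evalEval_finsetSum, evalEval_smul,
      evalEval_mul, evalEval_C, evalEval_map_C, Finset.sum_apply, Pi.smul_apply, smul_eq_mul]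
    exact Finset.sum_congr rfl fun x _ => by ring
  have hmem : ∀ z, Θ z ∈ VV L M n := by
    intro z
    refine ⟨fun i k j h => ?_, fun w y => ?_, fun w y => ?_⟩
    · simp only [Θ, LinearMap.coe_mk, AddHom.coe_mk, finsetSum_coeff, coeff_smul, coeff_C_mul,
        coeff_map, coeff_mul_C]
      refine Finset.sum_eq_zero fun x _ => ?_
      rcases h with h | h
      · simp [hℓ _ _ h]
      · simp [hℓ _ _ h]
    · rw [hev]
      refine Submodule.sum_mem _ fun x _ => ?_
      have := hℓv x.1.1 w
      simp only [v] at this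
      rw [this]
      split_ifs with h
      · exact Submodule.smul_mem _ _ (h ▸ (z x).2.1)
      · simp
    · rw [hev]
      refine Submodule.sum_mem _ fun x _ => ?_
      have := hℓv x.1.2 w
      simp only [v] at this
      rw [this]
      split_ifs with h
      · exact Submodule.smul_mem _ _ (h ▸ (z x).2.2)
      · simp
  have hinj : Function.Injective (Θ.codRestrict _ hmem) := by
    refine (injective_iff_map_eq_zero _).2 fun z hz => ?_
    have h0 : Θ z = 0 := congrArg Subtype.val hz
    ext1 x
    have := hev z (v x.1.1) (v x.1.2)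
    rw [h0, Finset.sum_eq_single x] at this
    · rw [hℓv, hℓv, if_pos rfl, if_pos rfl] at this
      apply Subtype.ext
      ext i
      simpa using (congrFun this i).symm
    · intro y _ hy
      rw [hℓv, hℓv]
      split_ifs with h1 h2
      · exact absurd (Subtype.ext (Prod.ext h1 h2)) hy
      · simp
      · simp
      · simp
    · simp
  have h1 := (LinearMap.rank_le_of_injective _ hinj).trans (rank_VV L M hLM n)
  rw [← finrank_eq_rank, Module.finrank_pi_fintype] at h1
  exact_mod_cast h1

end

theorem nside {Ω : Type} [AddCommGroup Ω] [Module ℝ Ω] [FiniteDimensional ℝ Ω] {n : ℕ}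
    (L M : Fin n → Submodule ℝ Ω) (hLM : ∀ w, Disjoint (L w) (M w)) :
    ∑ x : {x : Fin n × Fin n // x.1 ≠ x.2}, finrank ℝ ↥(L x.1.1 ⊓ M x.1.2) ≤
      cost n n * finrank ℝ Ω := by
  let e := (Module.finBasis ℝ Ω).equivFun
  have := nside_coord (fun w => (L w).map e.toLinearMap) (fun w => (M w).map e.toLinearMap)
    (fun w => Submodule.disjoint_map e.injective (hLM w))
  rw [Fintype.card_fin] at this
  refine le_trans (le_of_eq (Finset.sum_congr rfl fun x _ => ?_)) this
  rw [← Submodule.map_inf _ e.injective]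
  exact (LinearEquiv.finrank_map_eq e _).symm

end Vale.Agent.P040
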