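import Vale.Agent.P040.MSide
import Vale.Agent.P040.NSide

/-!
# The algebraic form of the lower bound
-/

namespace Vale.Agent.P040

open Polynomial Module

section

variable {A : Type} (s : A → ℝ) (p q : ℕ)

/-- the matrix `(s a - s b) f (s a, s b)` for a polynomial `f` of bidegree less than `(p, q)` -/
def EE : (Fin p × Fin q → ℝ) →ₗ[ℝ] (A → A → ℝ) where
  toFun c a b := (s a - s b) * ∑ x, c x * (s a ^ (x.1 : ℕ) * s b ^ (x.2 : ℕ))
  map_add' c c' := by ext a b; simp [add_mul, Finset.sum_add_distrib, mul_add]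
  map_smul' r c := by
    ext a b
    simp only [Pi.smul_apply, smul_eq_mul, RingHom.id_apply, Finset.mul_sum]
    exact Finset.sum_congr rfl fun x _ => by ring

theorem pow_mem_Pol {d k : ℕ} (h : k < d) : (fun a => s a ^ k) ∈ Pol s d :=
  ⟨X ^ k, by rw [degree_X_pow]; exact_mod_cast h, fun a => by simp⟩

theorem EE_col (c : Fin p × Fin q → ℝ) (b : A) : (fun a => EE s p q c a b) ∈ Pol s (p + 1) := by
  have : (fun a => EE s p q c a b) = ∑ x : Fin p × Fin q,
      ((c x * s b ^ (x.2 : ℕ)) • (fun a => s a ^ ((x.1 : ℕ) + 1)) -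
        (c x * s b ^ ((x.2 : ℕ) + 1)) • fun a => s a ^ (x.1 : ℕ)) := by
    ext a
    simp only [EE, LinearMap.coe_mk, AddHom.coe_mk, Finset.mul_sum, Finset.sum_apply,
      Pi.sub_apply, Pi.smul_apply, smul_eq_mul]
    exact Finset.sum_congr rfl fun x _ => by ring
  rw [this]
  exact Submodule.sum_mem _ fun x _ => Submodule.sub_mem _
    (Submodule.smul_mem _ _ (pow_mem_Pol s (by omega)))
    (Submodule.smul_mem _ _ (pow_mem_Pol s (by omega)))

theorem EE_row (c : Fin p × Fin q → ℝ) (a : A) : EE s p q c a ∈ Pol s (q + 1) := by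
  have : EE s p q c a = ∑ x : Fin p × Fin q,
      ((c x * s a ^ ((x.1 : ℕ) + 1)) • (fun b => s b ^ (x.2 : ℕ)) -
        (c x * s a ^ (x.1 : ℕ)) • fun b => s b ^ ((x.2 : ℕ) + 1)) := by
    ext b
    simp only [EE, LinearMap.coe_mk, AddHom.coe_mk, Finset.mul_sum, Finset.sum_apply,
      Pi.sub_apply, Pi.smul_apply, smul_eq_mul]
    exact Finset.sum_congr rfl fun x _ => by ring
  rw [this]
  exact Submodule.sum_mem _ fun x _ => Submodule.sub_mem _
    (Submodule.smul_mem _ _ (pow_mem_Pol s (by omega)))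
    (Submodule.smul_mem _ _ (pow_mem_Pol s (by omega)))

theorem EE_diag (c : Fin p × Fin q → ℝ) (a : A) : EE s p q c a a = 0 := by simp [EE]

variable {s p q}

theorem coeffs_zero (hs : Function.Injective s) {d : ℕ} (c : Fin d → ℝ) (I : Finset A)
    (hI : d ≤ I.card) (h : ∀ a ∈ I, ∑ i, c i * s a ^ (i : ℕ) = 0) : c = 0 := by
  have h1 : (∑ i : Fin d, C (c i) * X ^ (i : ℕ) : ℝ[X]) = 0 :=
    eq_zero_of_degree_lt_of_eval_index_eq_zero I hs.injOn
      ((degree_sum_fin_lt c).trans_le (by exact_mod_cast hI))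
      (fun a ha => by simpa [eval_finsetSum] using h a ha)
  ext i
  have h2 := congrArg (fun r : ℝ[X] => r.coeff i) h1
  simp only [finsetSum_coeff, coeff_C_mul, coeff_X_pow, coeff_zero] at h2
  rw [Finset.sum_eq_single i] at h2
  · simpa using h2
  · intro j _ hj
    rw [if_neg (fun h => hj (Fin.ext h.symm)), mul_zero]
  · simp

theorem EE_inj [Fintype A] (hs : Function.Injective s) (hm : Fintype.card A = p + q + 1)
    (c : Fin p × Fin q → ℝ) (h : EE s p q c = 0) : c = 0 := by
  classical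
  have h1 : ∀ a, (fun j : Fin q => ∑ i : Fin p, c (i, j) * s a ^ (i : ℕ)) = 0 := by
    intro a
    refine coeffs_zero hs _ (Finset.univ.erase a)
      (by rw [Finset.card_erase_of_mem (Finset.mem_univ _), Finset.card_univ]; omega)
      fun b hb => ?_
    have h2 := congrFun (congrFun h a) b
    have h3 : s a - s b ≠ 0 := sub_ne_zero.2 fun h => Finset.ne_of_mem_erase hb (hs h).symm
    simp only [EE, LinearMap.coe_mk, AddHom.coe_mk, Pi.zero_apply, mul_eq_zero, h3,
      false_or] at h2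
    rw [← h2, Fintype.sum_prod_type_right]
    refine Finset.sum_congr rfl fun j _ => ?_
    rw [Finset.sum_mul]
    exact Finset.sum_congr rfl fun i _ => by ring
  ext ⟨i, j⟩
  exact congrFun (coeffs_zero hs (fun i => c (i, j)) Finset.univ
    (by rw [Finset.card_univ]; omega) fun a _ => congrFun (h1 a) j) i

/-- entrywise multiplication -/
def mulZ (Z : A → A → ℝ) : (A → A → ℝ) →ₗ[ℝ] (A → A → ℝ) where
  toFun h a b := Z a b * h a b
  map_add' c c' := by ext a b; simp [mul_add]
  map_smul' r c := by ext a b; simp; ring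

end

theorem alg_aux {m n p q : ℕ} (hm : m = p + q + 1) (hqp : q ≤ p) (hpq : p ≤ q + 1)
    (X Y : Fin n → Fin m → Fin m → ℝ) (C : Fin n → Fin n → Finset (Fin m × Fin m))
    (h1 : ∀ u v, u ≠ v → ∃ x y : Fin m → ℝ, ∀ a b, a ≠ b → (a, b) ∉ C u v →
      X u a b - Y v a b = x a + y b)
    (h2 : ∀ u, ∃ (x y ρ : Fin m → ℝ) (κ : ℝ), κ ≠ 0 ∧ Function.Injective ρ ∧ ∀ a b, a ≠ b →
      X u a b - Y u a b = x a + y b + if ρ a < ρ b then κ else 0) :
    (n * n - n) * (p * q) ≤ cost n n * (2 * (p * q)) +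
      ∑ x : {x : Fin n × Fin n // x.1 ≠ x.2}, (C x.1.1 x.1.2).card := by
  classical
  let s : Fin m → ℝ := fun a => ((a : ℕ) : ℝ)
  have hs : Function.Injective s := fun a b h => Fin.ext (by simpa [s] using h)
  let Φ : (Fin m → Fin m → ℝ) → (Fin p × Fin q → ℝ) →ₗ[ℝ]
      ((Fin m → Fin m → ℝ) ⧸ RR s (p + 1) (q + 1)) := fun Z =>
    (RR s (p + 1) (q + 1)).mkQ ∘ₗ mulZ Z ∘ₗ EE s p q
  have hΦ : ∀ Z Z' c, Φ Z c = Φ Z' c ↔
      (fun a b => (Z a b - Z' a b) * EE s p q c a b) ∈ RR s (p + 1) (q + 1) := by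
    intro Z Z' c
    simp only [Φ, LinearMap.comp_apply, Submodule.mkQ_apply]
    rw [Submodule.Quotient.eq]
    have : mulZ Z (EE s p q c) - mulZ Z' (EE s p q c) =
        fun a b => (Z a b - Z' a b) * EE s p q c a b := by
      ext a b
      simp [mulZ, sub_mul]
    rw [this]
  have hW : finrank ℝ (Fin p × Fin q → ℝ) = p * q := by
    rw [Module.finrank_fintype_fun_eq_card, Fintype.card_prod, Fintype.card_fin, Fintype.card_fin]
  have hd : ∀ u, Disjoint (Φ (X u)).graph (Φ (Y u)).graph := by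
    intro u
    rw [Submodule.disjoint_def]
    rintro ⟨c, z⟩ hx hy
    rw [LinearMap.mem_graph_iff] at hx hy
    dsimp only at hx hy
    obtain ⟨x, y, ρ, κ, hκ, hρ, h⟩ := h2 u
    have h3 := (hΦ _ _ c).1 (hx.symm.trans hy)
    have h4 := (RR s (p + 1) (q + 1)).smul_mem κ⁻¹ ((RR s (p + 1) (q + 1)).sub_mem h3
      (RR.rowcol (EE_col s p q c) (EE_row s p q c) x y))
    have h5 : κ⁻¹ • ((fun a b => (X u a b - Y u a b) * EE s p q c a b) -
        fun a b => (x a + y b) * EE s p q c a b) =
        fun a b => if ρ a < ρ b then EE s p q c a b else 0 := by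
      ext a b
      simp only [Pi.smul_apply, Pi.sub_apply, smul_eq_mul]
      by_cases hab : a = b
      · subst hab
        simp [EE_diag]
      · rw [h a b hab]
        split_ifs
        · field_simp
          ring
        · ring
    rw [h5] at h4
    have h6 := mside hm hqp hpq hs (EE_col s p q c) (EE_row s p q c) (EE_diag s p q c) hρ h4
    have h7 := EE_inj hs (by rw [Fintype.card_fin, hm]) c h6
    subst h7
    rw [hx]
    simp
  have hk : ∀ x : {x : Fin n × Fin n // x.1 ≠ x.2},
      p * q ≤ finrank ℝ ↥((Φ (X x.1.1)).graph ⊓ (Φ (Y x.1.2)).graph) +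
        (C x.1.1 x.1.2).card := by
    rintro ⟨⟨u, v⟩, huv⟩
    obtain ⟨x, y, h⟩ := h1 u v huv
    let T : (Fin p × Fin q → ℝ) →ₗ[ℝ] (C u v → ℝ) :=
      { toFun := fun c z => EE s p q c z.1.1 z.1.2
        map_add' := fun c c' => by ext z; simp
        map_smul' := fun r c => by ext z; simp }
    have h3 := LinearMap.finrank_range_add_finrank_ker T
    have h4 := Submodule.finrank_le (LinearMap.range T)
    rw [Module.finrank_fintype_fun_eq_card, Fintype.card_coe] at h4
    have hmem : ∀ c : LinearMap.ker T, (((LinearMap.id.prod (Φ (X u))) ∘ₗ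
        (LinearMap.ker T).subtype) c) ∈ (Φ (X u)).graph ⊓ (Φ (Y v)).graph := by
      rintro ⟨c, hc⟩
      refine ⟨by simp, ?_⟩
      simp only [SetLike.mem_coe, LinearMap.mem_graph_iff]
      refine (hΦ _ _ c).2 ?_
      have h5 : (fun a b => (X u a b - Y v a b) * EE s p q c a b) =
          fun a b => (x a + y b) * EE s p q c a b := by
        ext a b
        by_cases hab : a = b
        · subst hab
          simp [EE_diag]
        · by_cases hC : (a, b) ∈ C u v
          · have : EE s p q c a b = 0 := congrFun (LinearMap.mem_ker.1 hc) ⟨(a, b), hC⟩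
            rw [this, mul_zero, mul_zero]
          · rw [h a b hab hC]
      rw [h5]
      exact RR.rowcol (EE_col s p q c) (EE_row s p q c) x y
    have h6 := LinearMap.finrank_le_finrank_of_injective
      (f := LinearMap.codRestrict _ _ hmem) fun c c' hcc => by
        have := congrArg (fun z => z.1.1) hcc
        exact Subtype.ext this
    dsimp only
    omega
  have h3 := nside (fun u => (Φ (X u)).graph) (fun u => (Φ (Y u)).graph) hd
  have h4 := finrank_quot hs (p := p) (q := q) (by rw [Fintype.card_fin, hm])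
  rw [Module.finrank_prod, hW] at h3
  have h5 := Finset.sum_le_sum fun x (_ : x ∈ Finset.univ) => hk x
  rw [Finset.sum_add_distrib, Finset.sum_const, Finset.card_univ, smul_eq_mul] at h5
  have h6 : Fintype.card {x : Fin n × Fin n // x.1 ≠ x.2} = n * n - n := by
    rw [Fintype.card_subtype]
    have : (Finset.univ.filter fun x : Fin n × Fin n => x.1 ≠ x.2) = Finset.univ.offDiag := by
      ext x; simp [Finset.mem_offDiag]
    rw [this, Finset.offDiag_card, Finset.card_fin]
  rw [h6] at h5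
  have h7 := Nat.mul_le_mul_left (cost n n) (show p * q + finrank ℝ
    ((Fin m → Fin m → ℝ) ⧸ RR s (p + 1) (q + 1)) ≤ 2 * (p * q) by omega)
  omega

theorem alg {m n : ℕ}
    (X Y : Fin n → Fin m → Fin m → ℝ) (C : Fin n → Fin n → Finset (Fin m × Fin m))
    (h1 : ∀ u v, u ≠ v → ∃ x y : Fin m → ℝ, ∀ a b, a ≠ b → (a, b) ∉ C u v →
      X u a b - Y v a b = x a + y b)
    (h2 : ∀ u, ∃ (x y ρ : Fin m → ℝ) (κ : ℝ), κ ≠ 0 ∧ Function.Injective ρ ∧ ∀ a b, a ≠ b →
      X u a b - Y u a b = x a + y b + if ρ a < ρ b then κ else 0) :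
    2 * ((m / 2 * ((m - 1) / 2)) * (n / 2 * ((n - 1) / 2))) ≤
      ∑ x : {x : Fin n × Fin n // x.1 ≠ x.2}, (C x.1.1 x.1.2).card := by
  rcases Nat.eq_zero_or_pos m with rfl | hm
  · simp
  have h3 := alg_aux (p := m / 2) (q := (m - 1) / 2) (by omega) (by omega) (by omega) X Y C h1 h2
  have h4 := cost_le n n
  have h5 : 2 * cost n n + 2 * (n / 2 * ((n - 1) / 2)) ≤ n * n - n := by
    rw [show 2 * n - n = n by omega] at h4
    rcases Nat.even_or_odd' n with ⟨k, rfl | rfl⟩
    · rcases Nat.eq_zero_or_pos k with rfl | hk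
      · simp [cost]
      obtain ⟨j, rfl⟩ := Nat.exists_eq_add_of_le' hk
      have e1 : 2 * (j + 1) / 2 = j + 1 := by omega
      have e2 : (2 * (j + 1) - 1) / 2 = j := by omega
      rw [e1, e2]
      apply Nat.le_sub_of_add_le
      nlinarith
    · have e1 : (2 * k + 1) / 2 = k := by omega
      have e2 : (2 * k + 1 - 1) / 2 = k := by omega
      rw [e1, e2]
      apply Nat.le_sub_of_add_le
      have e3 : (2 * k + 1) ^ 2 = 4 * (k * k + k) + 1 := by ring
      have : cost (2 * k + 1) (2 * k + 1) ≤ k * k + k := by omega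
      nlinarith
  have h6 := Nat.mul_le_mul_right (m / 2 * ((m - 1) / 2)) h5
  nlinarith

end Vale.Agent.P040
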