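import Vale.Agent.P040.Topo

/-!
# Removing the common points of two curves with the same end
-/

namespace Vale.Agent.P040

open Set Complex Filter Topology

theorem three_points {z₁ z₂ z₃ : ℂ} {ε : ℝ} (hε : 0 < ε) (h₁ : ‖z₁‖ = ε) (h₂ : ‖z₂‖ = ε)
    (h₃ : ‖z₃‖ = ε) (h12 : z₁ ≠ z₂) (h13 : z₁ ≠ z₃) {a b c : ℝ} (hs : a + b + c = 0)
    (hz : a * z₁ + b * z₂ + c * z₃ = 0) : a = 0 := by
  have hw := congrArg (starRingEnd ℂ) hz
  simp only [map_add, map_mul, conj_ofReal, map_zero] at hw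
  have k1 := mul_conj' z₁
  have k2 := mul_conj' z₂
  have k3 := mul_conj' z₃
  rw [h₁] at k1
  rw [h₂] at k2
  rw [h₃] at k3
  have hs' : (a : ℂ) + b + c = 0 := by exact_mod_cast hs
  have h : (a : ℂ) * ((z₁ - z₂) * (z₁ - z₃) * (starRingEnd ℂ) z₁) = 0 := by
    linear_combination (ε : ℂ) ^ 2 * hz - (ε : ℂ) ^ 2 * (z₂ + z₃) * hs' + z₂ * z₃ * hw +
      a * (z₁ - z₂ - z₃) * k1 - b * z₃ * k2 - c * z₂ * k3
  have hz1 : z₁ ≠ 0 := norm_pos_iff.1 (by rw [h₁]; exact hε)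
  have : (z₁ - z₂) * (z₁ - z₃) * (starRingEnd ℂ) z₁ ≠ 0 :=
    mul_ne_zero (mul_ne_zero (sub_ne_zero.2 h12) (sub_ne_zero.2 h13)) (by simpa using hz1)
  exact_mod_cast (mul_eq_zero.1 h).resolve_right this

theorem chords {z A B C D : ℂ} {ε : ℝ} (hε : 0 < ε) (hB : ‖B - z‖ = ε)
    (hC : ‖C - z‖ = ε) (hD : ‖D - z‖ = ε) (hBC : B ≠ C) (hBD : B ≠ D) :
    (∀ l ∈ Ioo (0 : ℝ) 1, ∀ k ∈ Ioo (0 : ℝ) 1, (1 - l) * A + l * B ≠ (1 - k) * C + k * D) ∨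
    (∀ l ∈ Ioo (0 : ℝ) 1, ∀ k ∈ Ioo (0 : ℝ) 1, (1 - l) * A + l * D ≠ (1 - k) * C + k * B) := by
  by_contra hcon
  push Not at hcon
  obtain ⟨⟨l, hl, k, hk, h1⟩, l', hl', k', hk', h2⟩ := hcon
  have := three_points hε hB hC hD (fun h => hBC (sub_left_injective h))
    (fun h => hBD (sub_left_injective h)) (a := (1 - l') * l + (1 - l) * k')
    (b := -((1 - l') * (1 - k)) + (1 - l) * (1 - k')) (c := -((1 - l') * k) - (1 - l) * l')
    (by ring) (by push_cast; linear_combination (1 - (l' : ℂ)) * h1 - (1 - (l : ℂ)) * h2)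
  nlinarith [mul_pos (sub_pos.2 hl'.2) hl.1, mul_pos (sub_pos.2 hl.2) hk'.1]

theorem chord_lt {z A B : ℂ} {ε l : ℝ} (hA : ‖A - z‖ = ε) (hB : ‖B - z‖ = ε) (hAB : A ≠ B)
    (hl : l ∈ Ioo (0 : ℝ) 1) : ‖(1 - l) * A + l * B - z‖ < ε := by
  have := norm_combo_lt_of_ne hA.le hB.le (fun h => hAB (sub_left_injective h))
    (sub_pos.2 hl.2) hl.1 (by ring)
  have e : (1 - l) * A + l * B - z = (1 - l) • (A - z) + l • (B - z) := by
    simp only [real_smul]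
    push_cast
    ring
  rw [e]
  exact this

theorem exists_glue {f g : ℝ → ℂ} (hf : Continuous f) (hg : Continuous g) {c d : ℝ}
    (hcd : c < d) : ∃ h : ℝ → ℂ, Continuous h ∧ (∀ t, t ≤ c → h t = f t) ∧
      (∀ t, d ≤ t → h t = g t) ∧ ∀ t, c < t → t < d →
        h t = (1 - ((t - c) / (d - c) : ℝ)) * f c + ((t - c) / (d - c) : ℝ) * g d := by
  have hd : 0 < d - c := sub_pos.2 hcd
  refine ⟨fun t => f (min t c) + g (max t d) - (max 0 (min 1 ((t - c) / (d - c))) : ℝ) * f c -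
    (1 - (max 0 (min 1 ((t - c) / (d - c))) : ℝ)) * g d, by fun_prop, fun t ht => ?_,
    fun t ht => ?_, fun t h1 h2 => ?_⟩
  · have : (t - c) / (d - c) ≤ 0 := div_nonpos_of_nonpos_of_nonneg (by linarith) hd.le
    dsimp only
    rw [min_eq_left ht, max_eq_right (ht.trans hcd.le), min_eq_right (by linarith),
      max_eq_left this]
    simp
  · have : 1 ≤ (t - c) / (d - c) := by rw [le_div_iff₀ hd]; linarith
    dsimp only
    rw [min_eq_right (hcd.le.trans ht), max_eq_left ht, min_eq_left this,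
      max_eq_right zero_le_one]
    simp
  · have k1 : 0 ≤ (t - c) / (d - c) := div_nonneg (by linarith) hd.le
    have k2 : (t - c) / (d - c) ≤ 1 := by rw [div_le_iff₀ hd]; linarith
    dsimp only
    rw [min_eq_right h1.le, max_eq_right h2.le, min_eq_right k2, max_eq_right k1]
    ring

variable {m n : ℕ} {p : Fin m → ℂ} {q : Fin n → ℂ} {γ : Fin m × Fin n → ℝ → ℂ}

theorem transfer (D : IsDr p q γ) {γ' : Fin m × Fin n → ℝ → ℂ} (cont : ∀ e, Continuous (γ' e))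
    (zero : ∀ e, γ' e 0 = p e.1) (one : ∀ e, γ' e 1 = q e.2)
    (S : Set ((Fin m × Fin n) × ℝ)) (ρ : (Fin m × Fin n) × ℝ → (Fin m × Fin n) × ℝ)
    (h1 : ∀ x ∈ S, x.2 ∈ Ioo (0 : ℝ) 1 →
      (ρ x).2 ∈ Ioo (0 : ℝ) 1 ∧ γ (ρ x).1 (ρ x).2 = γ' x.1 x.2)
    (h2 : ∀ x ∈ S, ∀ y ∈ S, x.2 ∈ Ioo (0 : ℝ) 1 → y.2 ∈ Ioo (0 : ℝ) 1 → ρ x = ρ y → x = y)
    (h3 : ∀ x y : (Fin m × Fin n) × ℝ, x.2 ∈ Ioo (0 : ℝ) 1 → y.2 ∈ Ioo (0 : ℝ) 1 → x ≠ y →
      γ' x.1 x.2 = γ' y.1 y.2 → x ∈ S)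
    (h4 : ∀ x : (Fin m × Fin n) × ℝ, x ∉ S → x.2 ∈ Ioo (0 : ℝ) 1 →
      (∀ a, γ' x.1 x.2 ≠ p a) ∧ ∀ u, γ' x.1 x.2 ≠ q u) :
    IsDr p q γ' ∧ Zset γ' ⊆ Zset γ := by
  have hZ : Zset γ' ⊆ Zset γ := by
    rintro z ⟨x, y, hx, hy, hxy, k1, k2⟩
    have kx := h3 x y hx hy hxy (k1.trans k2.symm)
    have ky := h3 y x hy hx hxy.symm (k2.trans k1.symm)
    exact ⟨ρ x, ρ y, (h1 x kx hx).1, (h1 y ky hy).1, fun h => hxy (h2 x kx y ky hx hy h),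
      (h1 x kx hx).2.trans k1, (h1 y ky hy).2.trans k2⟩
  refine ⟨⟨cont, zero, one, fun e a t ht => ?_, fun e a t ht => ?_, D.fin.subset hZ,
    fun x y w hx hy hw k1 k2 => ?_⟩, hZ⟩
  · by_cases h : (e, t) ∈ S
    · rw [← (h1 _ h ht).2]; exact D.avp _ _ _ (h1 _ h ht).1
    · exact (h4 _ h ht).1 a
  · by_cases h : (e, t) ∈ S
    · rw [← (h1 _ h ht).2]; exact D.avq _ _ _ (h1 _ h ht).1
    · exact (h4 _ h ht).2 a
  · by_contra hcon
    push Not at hcon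
    obtain ⟨n1, n2, n3⟩ := hcon
    have kx := h3 x y hx hy n1 k1
    have ky := h3 y x hy hx n1.symm k1.symm
    have kw := h3 w x hw hx n2.symm k2.symm
    rcases D.triple (ρ x) (ρ y) (ρ w) (h1 x kx hx).1 (h1 y ky hy).1 (h1 w kw hw).1
      (by rw [(h1 x kx hx).2, (h1 y ky hy).2, k1]) (by rw [(h1 x kx hx).2, (h1 w kw hw).2, k2])
      with h | h | h
    · exact n1 (h2 x kx y ky hx hy h)
    · exact n2 (h2 x kx w kw hx hw h)
    · exact n3 (h2 y ky w kw hy hw h)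

theorem reparam (D : IsDr p q γ) (e₀ : Fin m × Fin n) {s t : ℝ} (hs : s ∈ Ioo (0 : ℝ) 1)
    (ht : t ∈ Ioo (0 : ℝ) 1) : ∃ γ' : Fin m × Fin n → ℝ → ℂ, IsDr p q γ' ∧ Zset γ' ⊆ Zset γ ∧
      γ' e₀ s = γ e₀ t ∧ ∀ e, e ≠ e₀ → γ' e s = γ e s := by
  classical
  let α : Fin m × Fin n → ℝ := fun e => if e = e₀ then Real.logb s t else 1
  have hα : ∀ e, 0 < α e := fun e => by
    simp only [α]
    split_ifs
    · exact Real.logb_pos_of_base_lt_one hs.1 hs.2 ht.1 ht.2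
    · exact one_pos
  obtain ⟨h1, h2⟩ := transfer D (γ' := fun e τ => γ e (τ ^ α e))
    (fun e => (D.cont e).comp (Real.continuous_rpow_const (hα e).le))
    (fun e => by simp only [Real.zero_rpow (hα e).ne', D.zero])
    (fun e => by simp only [Real.one_rpow, D.one]) univ (fun x => (x.1, x.2 ^ α x.1))
    (fun x _ hx => ⟨⟨Real.rpow_pos_of_pos hx.1 _, Real.rpow_lt_one hx.1.le hx.2 (hα _)⟩, rfl⟩)
    (fun x _ y _ hx hy h => by
      obtain ⟨e, τ⟩ := x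
      obtain ⟨e', τ'⟩ := y
      simp only [Prod.mk.injEq] at h ⊢
      obtain ⟨rfl, h⟩ := h
      exact ⟨rfl, Real.rpow_left_injOn (hα e).ne' hx.1.le hy.1.le h⟩)
    (fun x _ _ _ _ _ => mem_univ x) (fun x hx => absurd (mem_univ x) hx)
  refine ⟨_, h1, h2, ?_, fun e he => ?_⟩
  · simp only [α, if_true]
    rw [Real.rpow_logb hs.1 hs.2.ne ht.1]
  · simp only [α, if_neg he, Real.rpow_one]

theorem surgery (D : IsDr p q γ) {e₁ e₂ : Fin m × Fin n} (hne : e₁ ≠ e₂) (hu : e₁.2 = e₂.2)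
    {s : ℝ} (hs : s ∈ Ioo (0 : ℝ) 1) (h : γ e₁ s = γ e₂ s) :
    ∃ γ' : Fin m × Fin n → ℝ → ℂ, IsDr p q γ' ∧ Zset γ' ⊆ Zset γ \ {γ e₁ s} := by
  classical
  set z := γ e₁ s with hz
  have k1 : ∀ᶠ ε in 𝓝[>] (0 : ℝ), ∀ a, ε < ‖p a - z‖ := eventually_all.2 fun a =>
    nhdsWithin_le_nhds (gt_mem_nhds (norm_pos_iff.2 (sub_ne_zero.2 (D.avp _ a _ hs).symm)))
  have k2 : ∀ᶠ ε in 𝓝[>] (0 : ℝ), ∀ a, ε < ‖q a - z‖ := eventually_all.2 fun a =>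
    nhdsWithin_le_nhds (gt_mem_nhds (norm_pos_iff.2 (sub_ne_zero.2 (D.avq _ a _ hs).symm)))
  have k3 : ∀ᶠ ε in 𝓝[>] (0 : ℝ), ∀ w ∈ Zset γ \ {z}, ε < ‖w - z‖ :=
    (eventually_all_finite (D.fin.subset sdiff_subset)).2 fun w hw =>
      nhdsWithin_le_nhds (gt_mem_nhds (norm_pos_iff.2 (sub_ne_zero.2 hw.2)))
  have k4 : ∀ᶠ ε in 𝓝[>] (0 : ℝ), ∀ e, e ≠ e₁ → e ≠ e₂ → ∀ t ∈ Icc (0 : ℝ) 1,
      ε < ‖γ e t - z‖ := by
    refine eventually_all.2 fun e => eventually_all.2 fun h1 => eventually_all.2 fun h2 => ?_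
    have := D.cont e
    refine eventually_lt_on_Icc (f := fun t => ‖γ e t - z‖) (by fun_prop) fun t ht =>
      norm_pos_iff.2 (sub_ne_zero.2 fun h3 => ?_)
    rcases mem_Icc_cases ht with rfl | rfl | ht'
    · rw [D.zero] at h3; exact D.avp _ _ _ hs h3.symm
    · rw [D.one] at h3; exact D.avq _ _ _ hs h3.symm
    · rcases D.triple (e₁, s) (e₂, s) (e, t) hs hs ht' h h3.symm with h4 | h4 | h4
      · exact hne (congrArg Prod.fst h4)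
      · exact h1 (congrArg Prod.fst h4).symm
      · exact h2 (congrArg Prod.fst h4).symm
  obtain ⟨ε, hε, k1, k2, k3, k4⟩ := (eventually_pos'.and (k1.and (k2.and (k3.and k4)))).exists
  have hcd : ∀ e, ∃ c d : ℝ, 0 < c ∧ (∀ t ∈ Icc (0 : ℝ) 1, t ≤ c ∨ d ≤ t → ε ≤ ‖γ e t - z‖) ∧
      ((e = e₁ ∨ e = e₂) → c < s ∧ s < d ∧ d < 1 ∧ ‖γ e c - z‖ = ε ∧ ‖γ e d - z‖ = ε) ∧
      (¬ (e = e₁ ∨ e = e₂) → c = 1 ∧ d = 2) := by
    intro e
    by_cases he : e = e₁ ∨ e = e₂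
    · have hes : γ e s = z := by
        rcases he with rfl | rfl
        · rfl
        · exact h.symm
      have := D.cont e
      obtain ⟨c, hc, c1, c2⟩ := exists_first_entry (f := fun t => ‖γ e t - z‖) (by fun_prop)
        hs.1.le (by rw [D.zero]; exact k1 _) (by simpa [hes] using hε)
      obtain ⟨d, hd, d1, d2⟩ := exists_last_exit' (f := fun t => ‖γ e t - z‖) (by fun_prop)
        hs.2.le (by simpa [hes] using hε) (by rw [D.one]; exact k2 _)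
      refine ⟨c, d, hc.1, fun t ht ht' => ?_, fun _ => ⟨hc.2, hd.1, hd.2, c1, d1⟩,
        fun h' => absurd he h'⟩
      rcases ht' with ht' | ht'
      · exact c2 t ⟨ht.1, ht'⟩
      · exact d2 t ⟨ht', ht.2⟩
    · exact ⟨1, 2, one_pos, fun t ht _ => (k4 e (fun h => he (Or.inl h))
        (fun h => he (Or.inr h)) t ht).le, fun h' => absurd h' he, fun _ => ⟨rfl, rfl⟩⟩
  choose c d hc0 hout hin hoth using hcd
  have hdist : ∀ x y : (Fin m × Fin n) × ℝ, x.2 ∈ Ioo (0 : ℝ) 1 → y.2 ∈ Ioo (0 : ℝ) 1 → x ≠ y →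
      ‖γ x.1 x.2 - z‖ = ε → γ x.1 x.2 ≠ γ y.1 y.2 := by
    intro x y hx hy hxy h1 h2
    have := k3 (γ x.1 x.2) ⟨⟨x, y, hx, hy, hxy, rfl, h2.symm⟩, fun h3 => by
      rw [mem_singleton_iff] at h3
      rw [h3, sub_self, norm_zero] at h1
      exact hε.ne h1⟩
    linarith
  have hcm : ∀ e, (e = e₁ ∨ e = e₂) → c e ∈ Ioo (0 : ℝ) 1 := fun e he =>
    ⟨hc0 e, (hin e he).1.trans hs.2⟩
  have hdm : ∀ e, (e = e₁ ∨ e = e₂) → d e ∈ Ioo (0 : ℝ) 1 := fun e he =>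
    ⟨hs.1.trans (hin e he).2.1, (hin e he).2.2.1⟩
  have hAB : ∀ e e', (e = e₁ ∨ e = e₂) → (e' = e₁ ∨ e' = e₂) → γ e (c e) ≠ γ e' (d e') :=
    fun e e' he he' => hdist (e, c e) (e', d e') (hcm e he) (hdm e' he') (fun h => by
      have h1 : c e = d e' := congrArg Prod.snd h
      linarith [(hin e he).1, (hin e' he').2.1]) (hin e he).2.2.2.1
  have hBB : γ e₁ (d e₁) ≠ γ e₂ (d e₂) := hdist (e₁, d e₁) (e₂, d e₂) (hdm _ (Or.inl rfl))
    (hdm _ (Or.inr rfl)) (fun h => hne (congrArg Prod.fst h)) (hin _ (Or.inl rfl)).2.2.2.2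
  obtain ⟨σ, σ1, σ2, σ3, σ4⟩ : ∃ σ : Equiv.Perm (Fin m × Fin n), (∀ e, (σ e).2 = e.2) ∧
      (∀ e, (e = e₁ ∨ e = e₂) → (σ e = e₁ ∨ σ e = e₂)) ∧ (∀ e, ¬ (e = e₁ ∨ e = e₂) → σ e = e) ∧
      ∀ l ∈ Ioo (0 : ℝ) 1, ∀ k ∈ Ioo (0 : ℝ) 1, (1 - l) * γ e₁ (c e₁) + l * γ (σ e₁) (d (σ e₁)) ≠
        (1 - k) * γ e₂ (c e₂) + k * γ (σ e₂) (d (σ e₂)) := by
    rcases chords (A := γ e₁ (c e₁)) hε (hin _ (Or.inl rfl)).2.2.2.2
      (hin _ (Or.inr rfl)).2.2.2.1 (hin _ (Or.inr rfl)).2.2.2.2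
      (hAB _ _ (Or.inr rfl) (Or.inl rfl)).symm hBB with h1 | h1
    · exact ⟨1, fun e => rfl, fun e he => he, fun e _ => rfl, h1⟩
    · refine ⟨Equiv.swap e₁ e₂, fun e => ?_, fun e he => ?_, fun e he => ?_, ?_⟩
      · rw [Equiv.swap_apply_def]
        split_ifs with h2 h3
        · rw [h2, hu]
        · rw [h3, hu]
        · rfl
      · rcases he with rfl | rfl <;> simp
      · exact Equiv.swap_apply_of_ne_of_ne (fun h => he (Or.inl h)) (fun h => he (Or.inr h))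
      · simpa using h1
  have hcd1 : ∀ e, c e < d e := fun e => by
    by_cases he : e = e₁ ∨ e = e₂
    · linarith [(hin e he).1, (hin e he).2.1]
    · rw [(hoth e he).1, (hoth e he).2]; norm_num
  have hcd2 : ∀ e, c e < d (σ e) := fun e => by
    by_cases he : e = e₁ ∨ e = e₂
    · linarith [(hin e he).1, (hin _ (σ2 e he)).2.1]
    · rw [σ3 e he]; exact hcd1 e
  choose γ' g1 g2 g3 g4 using fun e => exists_glue (D.cont e) (D.cont (σ e)) (hcd2 e)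
  let S : Set ((Fin m × Fin n) × ℝ) := {x | x.2 ≤ c x.1 ∨ d (σ x.1) ≤ x.2}
  have hS : ∀ x ∈ S, x.2 ∈ Ioo (0 : ℝ) 1 → ε ≤ ‖γ' x.1 x.2 - z‖ := by
    rintro x (hx | hx) hx'
    · rw [g2 _ _ hx]; exact hout _ _ (Ioo_subset_Icc_self hx') (Or.inl hx)
    · rw [g3 _ _ hx]; exact hout _ _ (Ioo_subset_Icc_self hx') (Or.inr hx)
  have hN : ∀ x : (Fin m × Fin n) × ℝ, x ∉ S → x.2 ∈ Ioo (0 : ℝ) 1 → (x.1 = e₁ ∨ x.1 = e₂) ∧
      (x.2 - c x.1) / (d (σ x.1) - c x.1) ∈ Ioo (0 : ℝ) 1 ∧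
      γ' x.1 x.2 = (1 - ((x.2 - c x.1) / (d (σ x.1) - c x.1) : ℝ)) * γ x.1 (c x.1) +
        ((x.2 - c x.1) / (d (σ x.1) - c x.1) : ℝ) * γ (σ x.1) (d (σ x.1)) := by
    intro x hx hx'
    simp only [S, mem_ofPred_eq, not_or, not_le] at hx
    have hd := sub_pos.2 (hcd2 x.1)
    refine ⟨by_contra fun he => ?_, ⟨div_pos (by linarith [hx.1]) hd, ?_⟩, g4 _ _ hx.1 hx.2⟩
    · linarith [(hoth _ he).1, hx.1, hx'.2]
    · rw [div_lt_one hd]; linarith [hx.2]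
  have hN' : ∀ x : (Fin m × Fin n) × ℝ, x ∉ S → x.2 ∈ Ioo (0 : ℝ) 1 →
      ‖γ' x.1 x.2 - z‖ < ε := by
    intro x hx hx'
    obtain ⟨h1, h2, h3⟩ := hN x hx hx'
    rw [h3]
    exact chord_lt (hin _ h1).2.2.2.1 (hin _ (σ2 _ h1)).2.2.2.2 (hAB _ _ h1 (σ2 _ h1)) h2
  have h3 : ∀ x y : (Fin m × Fin n) × ℝ, x.2 ∈ Ioo (0 : ℝ) 1 → y.2 ∈ Ioo (0 : ℝ) 1 → x ≠ y →
      γ' x.1 x.2 = γ' y.1 y.2 → x ∈ S := by
    intro x y hx hy hxy h1
    by_contra hxS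
    have hyS : y ∉ S := fun hyS => by
      have h2 := hS y hyS hy
      have h3 := hN' x hxS hx
      rw [h1] at h3
      linarith
    obtain ⟨a1, a2, a3⟩ := hN x hxS hx
    obtain ⟨b1, b2, b3⟩ := hN y hyS hy
    rw [a3, b3] at h1
    obtain ⟨e, τ⟩ := x
    obtain ⟨e', τ'⟩ := y
    dsimp only at *
    by_cases hee : e = e'
    · subst hee
      have h2 : ((((τ - c e) / (d (σ e) - c e) : ℝ) : ℂ) - ((τ' - c e) / (d (σ e) - c e) : ℝ)) *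
          (γ e (c e) - γ (σ e) (d (σ e))) = 0 := by linear_combination -h1
      have h4 := (mul_eq_zero.1 h2).resolve_right (sub_ne_zero.2 (hAB _ _ a1 (σ2 _ a1)))
      have h5 : (τ - c e) / (d (σ e) - c e) = (τ' - c e) / (d (σ e) - c e) := by
        exact_mod_cast sub_eq_zero.1 h4
      rw [div_left_inj' (sub_pos.2 (hcd2 e)).ne'] at h5
      exact hxy (by rw [show τ = τ' by linarith])
    · rcases a1 with rfl | rfl <;> rcases b1 with rfl | rfl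
      · exact hee rfl
      · exact σ4 _ a2 _ b2 h1
      · exact σ4 _ b2 _ a2 h1.symm
      · exact hee rfl
  obtain ⟨h1, h2⟩ := transfer D g1 (fun e => by rw [g2 e 0 (hc0 e).le, D.zero])
    (fun e => by
      by_cases he : e = e₁ ∨ e = e₂
      · rw [g3 e 1 (hin _ (σ2 e he)).2.2.1.le, D.one, σ1]
      · rw [g2 e 1 (hoth e he).1.ge, D.one])
    S (fun x => (if x.2 ≤ c x.1 then x.1 else σ x.1, x.2))
    (fun x hx hx' => ⟨hx', by
      dsimp only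
      split_ifs with h1
      · rw [g2 _ _ h1]
      · rw [g3 _ _ (hx.resolve_left h1)]⟩)
    (fun x hx y hy _ _ h1 => by
      obtain ⟨e, τ⟩ := x
      obtain ⟨e', τ'⟩ := y
      simp only [Prod.mk.injEq] at h1 ⊢
      obtain ⟨h1, rfl⟩ := h1
      refine ⟨?_, rfl⟩
      split_ifs at h1 with h2 h3 h3
      · exact h1
      · have h4 : d (σ e') ≤ τ := hy.resolve_left h3
        rw [← h1] at h4
        linarith [hcd1 e]
      · have h4 : d (σ e) ≤ τ := hx.resolve_left h2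
        rw [h1] at h4
        linarith [hcd1 e']
      · exact σ.injective h1)
    h3 (fun x hx hx' => ⟨fun a h1 => by linarith [k1 a, h1 ▸ hN' x hx hx'],
      fun a h1 => by linarith [k2 a, h1 ▸ hN' x hx hx']⟩)
  refine ⟨γ', h1, fun w hw => ⟨h2 hw, fun hwz => ?_⟩⟩
  obtain ⟨x, y, hx, hy, hxy, a1, a2⟩ := hw
  have := hS x (h3 x y hx hy hxy (a1.trans a2.symm)) hx
  rw [a1, mem_singleton_iff.1 hwz, sub_self, norm_zero] at this
  linarith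

theorem bound (hp : Function.Injective p) (hq : Function.Injective q) (hpq : ∀ a u, p a ≠ q u)
    (D : IsDr p q γ) :
    (m / 2 * ((m - 1) / 2)) * (n / 2 * ((n - 1) / 2)) ≤ (Zset γ).ncard := by
  induction hN : (Zset γ).ncard using Nat.strong_induction_on generalizing γ with
  | _ N ih =>
  by_cases good : ∀ a b u, a ≠ b → ∀ s ∈ Ioo (0 : ℝ) 1, ∀ t ∈ Ioo (0 : ℝ) 1,
      γ (a, u) s ≠ γ (b, u) t
  · exact hN ▸ good_bound hp hq hpq D good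
  push Not at good
  obtain ⟨a, b, u, hab, s, hs, t, ht, h⟩ := good
  have hne : (a, u) ≠ (b, u) := fun h => hab (congrArg Prod.fst h)
  obtain ⟨γ₁, D₁, h1, h2, h3⟩ := reparam D (b, u) hs ht
  obtain ⟨γ₂, D₂, h4⟩ := surgery D₁ hne rfl hs (by rw [h2, h3 _ hne, h])
  have h5 : (Zset γ₂).ncard < N := by
    rw [← hN]
    refine Set.ncard_lt_ncard ⟨fun w hw => h1 (h4 hw).1, fun h6 => ?_⟩ D.fin
    have h7 : γ (a, u) s ∈ Zset γ := ⟨((a, u), s), ((b, u), t), hs, ht,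
      fun h => hne (congrArg Prod.fst h), rfl, h.symm⟩
    exact (h4 (h6 h7)).2 (h3 _ hne).symm
  exact (ih _ h5 D₂ rfl).trans h5.le

end Vale.Agent.P040
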