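import Vale.Agent.P040.Defs
import Vale.Agent.P040.Surgery

/-!
# The lower bound for drawings of complete bipartite graphs
-/

namespace Vale.Agent.P040

open Set

variable {m n : ℕ}

/-- the edge between `a` and `u` -/
def ed (e : Fin m × Fin n) : (completeBipartiteGraph (Fin m) (Fin n)).edgeSet :=
  ⟨s(Sum.inl e.1, Sum.inr e.2), by simp⟩

theorem ed_bijective : Function.Bijective (ed (m := m) (n := n)) := by
  constructor
  · rintro ⟨a, u⟩ ⟨b, v⟩ h
    have := congrArg Subtype.val h
    simpa [ed] using this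
  · rintro ⟨e, he⟩
    induction e using Sym2.ind with
    | _ x y =>
      rcases x with a | u <;> rcases y with b | v
      · simp at he
      · exact ⟨(a, v), rfl⟩
      · exact ⟨(b, u), Subtype.ext Sym2.eq_swap⟩
      · simp at he

theorem lower (D : Drawing (completeBipartiteGraph (Fin m) (Fin n))) :
    zd m * zd n ≤ D.crossings := by
  have hβ : ∀ e : Fin m × Fin n, ∃ β : unitInterval → ℝ × ℝ, Continuous β ∧
      Function.Injective β ∧ β 0 = D.pos (Sum.inl e.1) ∧ β 1 = D.pos (Sum.inr e.2) ∧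
      ∀ t, t ≠ 0 → t ≠ 1 → β t ∈ openArc (D.arc (ed e)) := by
    intro e
    have h := D.ends (ed e)
    simp only [ed, Sym2.map_mk, Sym2.eq_iff] at h
    rcases h with h | h
    · exact ⟨D.arc (ed e), D.continuous _, D.simple _, h.1, h.2, fun t h0 h1 => ⟨t, h0, h1, rfl⟩⟩
    · refine ⟨fun t => D.arc (ed e) (unitInterval.symm t),
        (D.continuous _).comp unitInterval.continuous_symm,
        (D.simple _).comp unitInterval.symm_bijective.1, by simpa [ed] using h.2,
        by simpa [ed] using h.1,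
        fun t h0 h1 => ⟨_, by simpa using h1, by simpa using h0, rfl⟩⟩
  choose β b1 b2 b3 b4 b5 using hβ
  let κ : ℝ × ℝ → ℂ := Complex.equivRealProdCLM.symm
  have κ1 : Continuous κ := Complex.equivRealProdCLM.symm.continuous
  have κ2 : Function.Injective κ := Complex.equivRealProdCLM.symm.injective
  let γ : Fin m × Fin n → ℝ → ℂ := fun e t => κ (β e (projIcc 0 1 zero_le_one t))
  have g1 : ∀ e, ∀ t ∈ Ioo (0 : ℝ) 1,
      β e (projIcc 0 1 zero_le_one t) ∈ openArc (D.arc (ed e)) := by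
    intro e t ht
    rw [projIcc_of_mem _ (Ioo_subset_Icc_self ht)]
    exact b5 e _ (fun h => ht.1.ne' (congrArg Subtype.val h))
      (fun h => ht.2.ne (congrArg Subtype.val h))
  have g2 : ∀ x y : (Fin m × Fin n) × ℝ, x.2 ∈ Ioo (0 : ℝ) 1 → y.2 ∈ Ioo (0 : ℝ) 1 →
      γ x.1 x.2 = γ y.1 y.2 → ed x.1 = ed y.1 → x = y := by
    rintro ⟨e, s⟩ ⟨e', t⟩ hs ht h he
    obtain rfl : e = e' := ed_bijective.1 he
    have := b2 e (κ2 h)
    rw [projIcc_of_mem _ (Ioo_subset_Icc_self hs),
      projIcc_of_mem _ (Ioo_subset_Icc_self ht)] at this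
    have h2 : s = t := congrArg Subtype.val this
    rw [h2]
  have hZ : Zset γ ⊆ κ '' meetings D.arc := by
    rintro z ⟨x, y, hx, hy, hxy, h1, h2⟩
    refine ⟨_, ⟨ed x.1, ed y.1, fun h => hxy (g2 x y hx hy (h1.trans h2.symm) h), g1 _ _ hx, ?_⟩,
      h1⟩
    rw [κ2 (h1.trans h2.symm)]
    exact g1 _ _ hy
  have hD : IsDr (fun a => κ (D.pos (Sum.inl a))) (fun u => κ (D.pos (Sum.inr u))) γ := by
    refine ⟨fun e => κ1.comp ((b1 e).comp continuous_projIcc), fun e => ?_, fun e => ?_,
      fun e a t ht h => D.avoid (ed e) _ (κ2 h ▸ g1 e t ht),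
      fun e a t ht h => D.avoid (ed e) _ (κ2 h ▸ g1 e t ht),
      (D.finite.image κ).subset hZ, fun x y w hx hy hw h1 h2 => ?_⟩
    · simp only [γ, projIcc_left]
      exact congrArg κ (b3 e)
    · simp only [γ, projIcc_right]
      exact congrArg κ (b4 e)
    · rcases D.no_triple (ed x.1) (ed y.1) (ed w.1) _ (g1 _ _ hx)
        (by rw [κ2 h1]; exact g1 _ _ hy) (by rw [κ2 h2]; exact g1 _ _ hw) with h | h | h
      · exact Or.inl (g2 x y hx hy h1 h)
      · exact Or.inr (Or.inl (g2 x w hx hw h2 h))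
      · exact Or.inr (Or.inr (g2 y w hy hw (h1.symm.trans h2) h))
  have := bound (fun a b h => Sum.inl_injective (D.pos_injective (κ2 h)))
    (fun a b h => Sum.inr_injective (D.pos_injective (κ2 h)))
    (fun a u h => Sum.inl_ne_inr (D.pos_injective (κ2 h))) hD
  refine this.trans ((ncard_le_ncard hZ (D.finite.image κ)).trans ?_)
  exact ncard_image_le D.finite

end Vale.Agent.P040
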