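import Mathlib

/-!
# The interpolation lemma for linear orders
-/

namespace Vale.Agent.P040

open Polynomial Module

section

variable {A : Type} (s : A → ℝ)

/-- functions given by a polynomial of degree less than `d` in the nodes `s` -/
def Pol (d : ℕ) : Submodule ℝ (A → ℝ) where
  carrier := {g | ∃ r : ℝ[X], r.degree < d ∧ ∀ a, g a = r.eval (s a)}
  zero_mem' := ⟨0, by simp, by simp⟩
  add_mem' := by
    rintro f g ⟨r, h1, h2⟩ ⟨r', h3, h4⟩
    exact ⟨r + r', (degree_add_le _ _).trans_lt (max_lt h1 h3), fun a => by simp [h2, h4]⟩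
  smul_mem' := by
    rintro c f ⟨r, h1, h2⟩
    exact ⟨c • r, (degree_smul_le _ _).trans_lt h1, fun a => by simp [h2]⟩

/-- sums of a matrix with polynomial columns and a matrix with polynomial rows -/
def RR (p q : ℕ) : Submodule ℝ (A → A → ℝ) where
  carrier := {h | ∃ U V : A → A → ℝ, (∀ b, (fun a => U a b) ∈ Pol s p) ∧ (∀ a, V a ∈ Pol s q) ∧
    ∀ a b, h a b = U a b + V a b}
  zero_mem' := ⟨0, 0, fun _ => (Pol s p).zero_mem, fun _ => (Pol s q).zero_mem, by simp⟩
  add_mem' := by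
    rintro f g ⟨U, V, h1, h2, h3⟩ ⟨U', V', h4, h5, h6⟩
    exact ⟨U + U', V + V', fun b => (Pol s p).add_mem (h1 b) (h4 b),
      fun a => (Pol s q).add_mem (h2 a) (h5 a), fun a b => by simp [h3, h6]; ring⟩
  smul_mem' := by
    rintro c f ⟨U, V, h1, h2, h3⟩
    exact ⟨c • U, c • V, fun b => (Pol s p).smul_mem c (h1 b),
      fun a => (Pol s q).smul_mem c (h2 a), fun a b => by simp [h3]; ring⟩

variable {s}

theorem Pol.eq_zero (hs : Function.Injective s) {d : ℕ} {g : A → ℝ} (hg : g ∈ Pol s d)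
    (I : Finset A) (hI : d ≤ I.card) (h0 : ∀ a ∈ I, g a = 0) : g = 0 := by
  obtain ⟨r, h1, h2⟩ := hg
  have : r = 0 := eq_zero_of_degree_lt_of_eval_index_eq_zero I hs.injOn
    (h1.trans_le (by exact_mod_cast hI)) (fun a ha => by rw [← h2, h0 a ha])
  ext a
  simp [h2, this]

theorem Pol.comp {B : Type} {d : ℕ} {g : A → ℝ} (hg : g ∈ Pol s d) (σ : B → A) :
    (fun b => g (σ b)) ∈ Pol (fun b => s (σ b)) d := by
  obtain ⟨r, h1, h2⟩ := hg
  exact ⟨r, h1, fun b => h2 _⟩

theorem RR.comp {B : Type} {p q : ℕ} {h : A → A → ℝ} (hh : h ∈ RR s p q) (σ : B → A) :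
    (fun a b => h (σ a) (σ b)) ∈ RR (fun b => s (σ b)) p q := by
  obtain ⟨U, V, h1, h2, h3⟩ := hh
  exact ⟨fun a b => U (σ a) (σ b), fun a b => V (σ a) (σ b), fun b => Pol.comp (h1 (σ b)) σ,
    fun a => Pol.comp (h2 (σ a)) σ, fun a b => h3 _ _⟩

theorem RR.rowcol {p q : ℕ} {φ : A → A → ℝ} (h1 : ∀ b, (fun a => φ a b) ∈ Pol s p)
    (h2 : ∀ a, φ a ∈ Pol s q) (x y : A → ℝ) :
    (fun a b => (x a + y b) * φ a b) ∈ RR s p q :=
  ⟨fun a b => y b * φ a b, fun a b => x a * φ a b, fun b => (Pol s p).smul_mem (y b) (h1 b),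
    fun a => (Pol s q).smul_mem (x a) (h2 a), fun a b => by ring⟩

theorem exists_interp (hs : Function.Injective s) {d : ℕ} (I : Finset A) (hI : I.card ≤ d)
    (C : A → A → ℝ) : ∃ G : A → A → ℝ, (∀ b, (fun a => G a b) ∈ Pol s d) ∧
      (∀ a ∈ I, G a = C a) ∧
      ∀ S : Submodule ℝ (A → ℝ), (∀ i ∈ I, C i ∈ S) → ∀ a, G a ∈ S := by
  classical
  refine ⟨fun a => ∑ i ∈ I, (Lagrange.basis I s i).eval (s a) • C i, fun b => ?_,
    fun a ha => ?_, fun S hS a => S.sum_mem fun i hi => S.smul_mem _ (hS i hi)⟩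
  · refine ⟨Lagrange.interpolate I s (fun i => C i b), (Lagrange.degree_interpolate_lt _
      hs.injOn).trans_le (by exact_mod_cast hI), fun a => ?_⟩
    simp [Lagrange.interpolate_apply, eval_finsetSum, mul_comm]
  · dsimp only
    rw [Finset.sum_eq_single a, Lagrange.eval_basis_self hs.injOn ha, one_smul]
    · intro i _ hia
      rw [Lagrange.eval_basis_of_ne hia ha, zero_smul]
    · exact fun h => absurd ha h

theorem finrank_quot [Fintype A] (hs : Function.Injective s) {p q : ℕ}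
    (hm : Fintype.card A = p + q + 1) :
    finrank ℝ ((A → A → ℝ) ⧸ RR s (p + 1) (q + 1)) ≤ p * q := by
  classical
  obtain ⟨I, -, hI⟩ := Finset.exists_subset_card_eq (s := (Finset.univ : Finset A)) (n := p + 1)
    (by rw [Finset.card_univ]; omega)
  obtain ⟨J, -, hJ⟩ := Finset.exists_subset_card_eq (s := (Finset.univ : Finset A)) (n := q + 1)
    (by rw [Finset.card_univ]; omega)
  let E : (↥(Iᶜ) × ↥(Jᶜ) → ℝ) →ₗ[ℝ] (A → A → ℝ) :=
    { toFun := fun z a b => if h : a ∈ Iᶜ ∧ b ∈ Jᶜ then z (⟨a, h.1⟩, ⟨b, h.2⟩) else 0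
      map_add' := fun z w => by
        ext a b; simp only [Pi.add_apply]; split_ifs <;> simp
      map_smul' := fun c w => by
        ext a b; simp only [Pi.smul_apply]; split_ifs <;> simp }
  have hsurj : Function.Surjective ((RR s (p + 1) (q + 1)).mkQ ∘ₗ E) := by
    intro y
    obtain ⟨h, rfl⟩ := (RR s (p + 1) (q + 1)).mkQ_surjective y
    obtain ⟨G, hG1, hG2, -⟩ := exists_interp hs I hI.le h
    obtain ⟨H, hH1, hH2, hH3⟩ := exists_interp hs J hJ.le (fun b a => h a b - G a b)
    have hH4 : ∀ a ∈ I, ∀ b, H b a = 0 := by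
      intro a ha b
      exact hH3 (LinearMap.ker (LinearMap.proj a)) (fun i _ => by simp [hG2 a ha]) b
    refine ⟨fun x => h x.1 x.2 - G x.1 x.2 - H x.2 x.1, ?_⟩
    simp only [LinearMap.comp_apply, Submodule.mkQ_apply]
    rw [eq_comm, Submodule.Quotient.eq]
    refine ⟨G, fun a b => H b a, hG1, hH1, fun a b => ?_⟩
    simp only [E, LinearMap.coe_mk, AddHom.coe_mk, Pi.sub_apply]
    split_ifs with hab
    · ring
    · rw [not_and_or, Finset.mem_compl, Finset.mem_compl, not_not, not_not] at hab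
      rcases hab with ha | hb
      · rw [hH4 a ha b, hG2 a ha]; ring
      · rw [hH2 b hb]; ring
  have := LinearMap.finrank_le_finrank_of_surjective hsurj
  rw [Module.finrank_fintype_fun_eq_card, Fintype.card_prod, Fintype.card_coe, Fintype.card_coe,
    Finset.card_compl, Finset.card_compl, hI, hJ, hm] at this
  have e1 : p + q + 1 - (p + 1) = q := by omega
  have e2 : p + q + 1 - (q + 1) = p := by omega
  rwa [e1, e2, mul_comm] at this

end

theorem Pol.eq_zero_fin {m : ℕ} {s : Fin m → ℝ} (hs : Function.Injective s) {d : ℕ}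
    {g : Fin m → ℝ} (hg : g ∈ Pol s d) (x y z : ℕ) (hyz : y ≤ z) (hz : z ≤ m)
    (hd : d ≤ (y - x) + (m - z))
    (h0 : ∀ a : Fin m, (x ≤ a.1 ∧ a.1 < y) ∨ z ≤ a.1 → g a = 0) : g = 0 := by
  classical
  refine Pol.eq_zero hs hg ((Finset.Ico x y ∪ Finset.Ico z m).attachFin fun k hk => ?_) ?_ ?_
  · simp only [Finset.mem_union, Finset.mem_Ico] at hk
    omega
  · rw [Finset.card_attachFin, Finset.card_union_of_disjoint, Nat.card_Ico, Nat.card_Ico]
    · exact hd
    · rw [Finset.disjoint_left]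
      intro k h1 h2
      simp only [Finset.mem_Ico] at h1 h2
      omega
  · intro a ha
    simp only [Finset.mem_attachFin, Finset.mem_union, Finset.mem_Ico] at ha
    exact h0 a (by omega)

theorem first_row {m p q : ℕ} (hm : m = p + q + 1) (hqp : q ≤ p) (hpq : p ≤ q + 1)
    {s : Fin m → ℝ} (hs : Function.Injective s) {φ : Fin m → Fin m → ℝ}
    (h1 : ∀ b, (fun a => φ a b) ∈ Pol s (p + 1)) (h2 : ∀ a, φ a ∈ Pol s (q + 1))
    (h0 : ∀ a, φ a a = 0)
    (hR : (fun a b => if a < b then φ a b else 0) ∈ RR s (p + 1) (q + 1))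
    (a₀ : Fin m) (ha₀ : a₀.1 = 0) : φ a₀ = 0 := by
  classical
  obtain ⟨R, C, hR1, hC1, hRC⟩ := hR
  let I : Finset (Fin m) := (Finset.Ico q m).attachFin fun k hk => (Finset.mem_Ico.1 hk).2
  have hI : I.card ≤ p + 1 := by
    rw [Finset.card_attachFin, Nat.card_Ico]; omega
  have hIm : ∀ a : Fin m, q ≤ a.1 → a ∈ I := fun a ha => by
    simp only [I, Finset.mem_attachFin, Finset.mem_Ico]
    exact ⟨ha, a.2⟩
  obtain ⟨G, hG1, hG2, hG3⟩ := exists_interp hs I hI C
  set U : Fin m → Fin m → ℝ := fun a b => R a b + G a b with hU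
  set V : Fin m → Fin m → ℝ := fun a b => C a b - G a b with hV
  have hU1 : ∀ b, (fun a => U a b) ∈ Pol s (p + 1) := fun b =>
    (Pol s (p + 1)).add_mem (hR1 b) (hG1 b)
  have hV1 : ∀ a, V a ∈ Pol s (q + 1) := fun a =>
    (Pol s (q + 1)).sub_mem (hC1 a) (hG3 _ (fun i _ => hC1 i) a)
  have hUV : ∀ a b, (if a < b then φ a b else 0) = U a b + V a b := fun a b => by
    have := hRC a b
    simp only [hU, hV] at this ⊢
    rw [this]; ring
  have hV0 : ∀ a : Fin m, q ≤ a.1 → ∀ b, V a b = 0 := fun a ha b => by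
    simp [hV, hG2 a (hIm a ha)]
  have hU0 : ∀ b : Fin m, b.1 ≤ q → ∀ a, U a b = 0 := fun b hb => by
    have := Pol.eq_zero_fin hs (hU1 b) 0 0 q (Nat.zero_le _) (by omega) (by omega) fun a ha => by
      have h3 := hUV a b
      have ha' : q ≤ a.1 := by omega
      rw [hV0 a ha', if_neg (by rw [Fin.lt_def]; omega)] at h3
      linarith
    exact fun a => congrFun this a
  have key : ∀ k : ℕ, (∀ b : Fin m, q + 1 ≤ b.1 → m ≤ b.1 + k → ∀ a, φ a b - U a b = 0) ∧
      ∀ a : Fin m, a.1 < q → q ≤ a.1 + k → ∀ b, V a b = 0 := by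
    intro k
    induction k with
    | zero => exact ⟨fun b _ h => absurd b.2 (by omega), fun a h h' => by omega⟩
    | succ k ih =>
      have hA : ∀ b : Fin m, q + 1 ≤ b.1 → m ≤ b.1 + (k + 1) → ∀ a, φ a b - U a b = 0 := by
        intro b hb hb'
        have := Pol.eq_zero_fin hs ((Pol s (p + 1)).sub_mem (h1 b) (hU1 b)) (q - k) (b.1 + 1) m
          b.2 le_rfl (by omega) fun a ha => by
            have h3 := hUV a b
            have ha2 := a.2
            have h4 : V a b = 0 := by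
              rcases lt_or_ge a.1 q with h | h
              · exact ih.2 a h (by omega) b
              · exact hV0 a h b
            simp only [Pi.sub_apply]
            by_cases hab : a = b
            · subst hab
              rw [if_neg (lt_irrefl _)] at h3
              rw [h0]; linarith
            · have : a.1 ≠ b.1 := fun h => hab (Fin.ext h)
              rw [if_pos (by rw [Fin.lt_def]; omega)] at h3
              linarith
        exact fun a => congrFun this a
      refine ⟨hA, fun a ha ha' => ?_⟩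
      have := Pol.eq_zero_fin hs (hV1 a) 0 (a.1 + 1) (max (q + 1) (m - (k + 1))) (by omega)
        (by omega) (by omega) fun b hb => by
          have h3 := hUV a b
          rcases hb with hb | hb
          · rw [hU0 b (by omega), if_neg (by rw [Fin.lt_def]; omega)] at h3
            linarith
          · have h4 := hA b (by omega) (by omega) a
            rw [if_pos (by rw [Fin.lt_def]; omega)] at h3
            linarith
      exact fun b => congrFun this b
  refine Pol.eq_zero_fin hs (h2 a₀) 0 (q + 1) m (by omega) le_rfl (by omega) fun b hb => ?_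
  have hb2 := b.2
  by_cases hab : a₀ = b
  · rw [← hab, h0]
  · have : a₀.1 ≠ b.1 := fun h => hab (Fin.ext h)
    have h3 := hUV a₀ b
    rw [if_pos (by rw [Fin.lt_def]; omega), hU0 b (by omega),
      (key m).2 a₀ (by omega) (by omega) b] at h3
    linarith

theorem min_row {m p q : ℕ} (hm : m = p + q + 1) (hqp : q ≤ p) (hpq : p ≤ q + 1)
    {s : Fin m → ℝ} (hs : Function.Injective s) {φ : Fin m → Fin m → ℝ}
    (h1 : ∀ b, (fun a => φ a b) ∈ Pol s (p + 1)) (h2 : ∀ a, φ a ∈ Pol s (q + 1))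
    (h0 : ∀ a, φ a a = 0) {ρ : Fin m → ℝ} (hρ : Function.Injective ρ)
    (hR : (fun a b => if ρ a < ρ b then φ a b else 0) ∈ RR s (p + 1) (q + 1))
    (c : Fin m) (hc : ∀ a, ρ c ≤ ρ a) : φ c = 0 := by
  let σ := Tuple.sort ρ
  have hσ : StrictMono (ρ ∘ σ) :=
    (Tuple.monotone_sort ρ).strictMono_of_injective (hρ.comp σ.injective)
  have h3 := RR.comp hR σ
  have h4 : (fun a b => if ρ (σ a) < ρ (σ b) then φ (σ a) (σ b) else 0) =
      fun a b => if a < b then φ (σ a) (σ b) else 0 := by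
    ext a b
    exact if_congr hσ.lt_iff_lt rfl rfl
  rw [h4] at h3
  have h5 : (σ.symm c).1 = 0 := by
    by_contra hne
    have h6 : (⟨0, by omega⟩ : Fin m) < σ.symm c := by
      rw [Fin.lt_def]; exact Nat.pos_of_ne_zero hne
    have h7 := hσ h6
    simp only [Function.comp_apply, Equiv.apply_symm_apply] at h7
    exact absurd h7 (not_lt.2 (hc _))
  have := first_row hm hqp hpq (hs.comp σ.injective) (φ := fun a b => φ (σ a) (σ b))
    (fun b => Pol.comp (h1 (σ b)) σ) (fun a => Pol.comp (h2 (σ a)) σ) (fun a => h0 _) h3 _ h5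
  ext b
  simpa using congrFun this (σ.symm b)

theorem mside {m p q : ℕ} (hm : m = p + q + 1) (hqp : q ≤ p) (hpq : p ≤ q + 1)
    {s : Fin m → ℝ} (hs : Function.Injective s) {φ : Fin m → Fin m → ℝ}
    (h1 : ∀ b, (fun a => φ a b) ∈ Pol s (p + 1)) (h2 : ∀ a, φ a ∈ Pol s (q + 1))
    (h0 : ∀ a, φ a a = 0) {ρ : Fin m → ℝ} (hρ : Function.Injective ρ)
    (hR : (fun a b => if ρ a < ρ b then φ a b else 0) ∈ RR s (p + 1) (q + 1)) : φ = 0 := by
  classical
  ext1 c
  obtain ⟨B, hB⟩ : ∃ B : ℝ, ∀ a b, ρ a < ρ b + B := by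
    obtain ⟨B, hB⟩ := (Set.finite_range fun x : Fin m × Fin m => ρ x.1 - ρ x.2).bddAbove
    exact ⟨B + 1, fun a b => by linarith [hB ⟨(a, b), rfl⟩]⟩
  let ρ' : Fin m → ℝ := fun a => if ρ a < ρ c then ρ a + B else ρ a
  have hρ' : Function.Injective ρ' := by
    intro a b h
    simp only [ρ'] at h
    split_ifs at h
    · exact hρ (by linarith)
    · linarith [hB b a]
    · linarith [hB a b]
    · exact hρ h
  refine min_row hm hqp hpq hs h1 h2 h0 hρ' ?_ c fun a => ?_
  · have h3 := (RR s (p + 1) (q + 1)).add_mem hR (RR.rowcol h1 h2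
      (fun a => if ρ a < ρ c then -1 else 0) (fun b => if ρ b < ρ c then 1 else 0))
    convert h3 using 1
    ext a b
    have := hB a b
    have := hB b a
    simp only [ρ', Pi.add_apply]
    split_ifs <;> first | ring1 | (exfalso; linarith)
  · simp only [ρ', lt_irrefl, if_false]
    split_ifs with h
    · linarith [hB c a]
    · linarith

end Vale.Agent.P040
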