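import Vale.Agent.P040.Alg
import Vale.Agent.Planar.Log

/-!
# The lower bound for systems of curves in which curves with a common end do not meet
-/

namespace Vale.Agent.P040

open Set Complex Vale.Agent.Planar Filter Topology

theorem var_neg {f : ℝ → ℂ} {a b : ℝ} (hab : a ≤ b) (hf : Continuous f)
    (h0 : ∀ t ∈ Icc a b, f t ≠ 0) : var (fun t => - f t) a b = var f a b := by
  obtain ⟨g, hg⟩ := exists_lift_Icc hf h0
  rw [var_eq hab hg.neg, var_eq hab hg]
  ring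

theorem one_sub_mem_slitPlane' {x : ℂ} (hx : ‖x‖ ≤ 1) (h1 : x ≠ 1) : 1 - x ∈ slitPlane := by
  left
  simp only [sub_re, one_re]
  have h2 := (abs_le.1 (abs_re_le_norm x)).2
  rcases (h2.trans hx).lt_or_eq with h | h
  · linarith
  · exfalso
    apply h1
    have h3 : x.re ^ 2 + x.im ^ 2 ≤ 1 := by
      have := Complex.sq_norm x
      rw [normSq_apply] at this
      nlinarith [norm_nonneg x]
    have h4 : x.im = 0 := by
      rw [h] at h3
      nlinarith [sq_nonneg x.im]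
    exact Complex.ext (by simpa using h) (by simpa using h4)

theorem var_disc' {f : ℝ → ℂ} {a b : ℝ} {q w : ℂ} (hab : a ≤ b) (hf : Continuous f)
    (hw : w ≠ 0) (h0 : ∀ t ∈ Icc a b, ‖w‖ ≤ ‖f t - q‖) (h1 : ∀ t ∈ Icc a b, f t ≠ q + w) :
    var (fun t => f t - (q + w)) a b = var (fun t => f t - q) a b +
      log (1 - w / (f b - q)) - log (1 - w / (f a - q)) := by
  have hne : ∀ t ∈ Icc a b, f t - q ≠ 0 := fun t ht h => by
    have := h0 t ht
    rw [h, norm_zero] at this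
    exact hw (norm_le_zero_iff.1 this)
  have hs : ∀ t ∈ Icc a b, 1 - w / (f t - q) ∈ slitPlane := fun t ht =>
    one_sub_mem_slitPlane' (by
      rw [norm_div, div_le_one (norm_pos_iff.2 (hne t ht))]; exact h0 t ht) (fun h => by
      rw [div_eq_one_iff_eq (hne t ht)] at h
      exact h1 t ht (by rw [h]; ring))
  obtain ⟨g, hg⟩ := exists_lift_Icc (f := fun t => f t - q) (by fun_prop) hne
  have h1 : IsLift (fun t => f t - (q + w)) (fun t => g t + log (1 - w / (f t - q)))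
      (Icc a b) := by
    refine ⟨hg.1.add (ContinuousOn.clog ?_ hs), fun t ht => ?_⟩
    · exact continuousOn_const.sub (continuousOn_const.div (by fun_prop) hne)
    · rw [exp_add, hg.2 t ht, exp_log (slitPlane_ne_zero (hs t ht))]
      have := hne t ht
      field_simp
      ring
  rw [var_eq hab h1, var_eq hab hg]
  ring

theorem var_tail {f : ℝ → ℂ} {a b : ℝ} {q z : ℂ} (hab : a ≤ b) (hf : Continuous f)
    (h0 : ∀ t ∈ Icc a b, ‖f t - q‖ < ‖z - q‖) (hb : f b = q) :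
    var (fun t => z - f t) a b = - log (1 - (f a - q) / (z - q)) := by
  have hz : z - q ≠ 0 := norm_pos_iff.1 ((norm_nonneg _).trans_lt (h0 a (left_mem_Icc.2 hab)))
  have hs : ∀ t ∈ Icc a b, 1 - (f t - q) / (z - q) ∈ slitPlane := fun t ht =>
    one_sub_mem_slitPlane (by
      rw [norm_div, div_lt_one (norm_pos_iff.2 hz)]; exact h0 t ht)
  have h1 : IsLift (fun t => z - f t) (fun t => log (z - q) + log (1 - (f t - q) / (z - q)))
      (Icc a b) := by
    refine ⟨continuousOn_const.add (ContinuousOn.clog (by fun_prop) hs), fun t ht => ?_⟩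
    rw [exp_add, exp_log hz, exp_log (slitPlane_ne_zero (hs t ht))]
    field_simp
    ring
  rw [var_eq hab h1, hb]
  simp

theorem arg_one_add {θ : ℝ} (h1 : -(Real.pi / 2) < θ) (h2 : θ < Real.pi / 2) :
    arg (1 + exp (2 * θ * I)) = θ := by
  have hc : 0 < 2 * Real.cos θ := by
    have := Real.cos_pos_of_mem_Ioo ⟨h1, h2⟩
    linarith
  have := arg_mul_cos_add_sin_mul_I hc (θ := θ) ⟨by linarith [Real.pi_pos], by
    linarith [Real.pi_pos]⟩
  rw [← this]
  congr 1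
  rw [this, ← exp_mul_I]
  push_cast
  rw [Complex.cos, show (2 : ℂ) * θ * I = θ * I + θ * I by ring, exp_add]
  have : exp (-(θ : ℂ) * I) * exp (θ * I) = 1 := by rw [← exp_add]; simp
  linear_combination -this

theorem arg_key' {x y : ℂ} (hx : x ≠ 0) (hxy : ‖y‖ = ‖x‖) (hne : arg y ≠ arg x) :
    (log (1 - y / x)).im - (log (1 - x / y)).im =
      arg y - arg x + if arg x < arg y then - Real.pi else Real.pi := by
  have hn : (‖x‖ : ℂ) ≠ 0 := by exact_mod_cast norm_ne_zero_iff.2 hx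
  have key : ∀ ψ : ℝ, exp (ψ * I) = - exp ((arg y - arg x) * I) → -Real.pi < ψ → ψ < Real.pi →
      (log (1 - y / x)).im - (log (1 - x / y)).im = ψ := by
    intro ψ hψ h1 h2
    have e0 : y / x = exp ((arg y - arg x) * I) := by
      conv_lhs => rw [← norm_mul_exp_arg_mul_I x, ← norm_mul_exp_arg_mul_I y, hxy]
      rw [sub_mul, exp_sub]
      field_simp
    have e1 : 1 - y / x = 1 + exp (2 * (ψ / 2 : ℝ) * I) := by
      push_cast
      rw [show (2 : ℂ) * (ψ / 2) = ψ by ring, hψ, ← e0]; ring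
    have e2 : 1 - x / y = 1 + exp (2 * (-ψ / 2 : ℝ) * I) := by
      push_cast
      rw [show (2 : ℂ) * (-ψ / 2) * I = -(ψ * I) by ring, exp_neg, hψ, ← e0, inv_neg, inv_div]
      ring
    rw [log_im, log_im, e1, e2, arg_one_add (by linarith) (by linarith),
      arg_one_add (by linarith) (by linarith)]
    ring
  have a1 := neg_pi_lt_arg x
  have a2 := arg_le_pi x
  have a3 := neg_pi_lt_arg y
  have a4 := arg_le_pi y
  split_ifs with h
  · refine key _ ?_ (by linarith) (by linarith)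
    push_cast
    rw [add_mul, exp_add, neg_mul, exp_neg, exp_pi_mul_I]; ring
  · have : arg y < arg x := lt_of_le_of_ne (not_lt.1 h) hne
    refine key _ ?_ (by linarith) (by linarith)
    push_cast
    rw [add_mul, exp_add, exp_pi_mul_I]; ring

theorem exists_first_entry {f : ℝ → ℝ} (hf : Continuous f) {a b ε : ℝ} (hab : a ≤ b)
    (ha : ε < f a) (hb : f b < ε) : ∃ c ∈ Ioo a b, f c = ε ∧ ∀ t ∈ Icc a c, ε ≤ f t := by
  have hcl : IsCompact (Icc a b ∩ f ⁻¹' {ε}) :=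
    isCompact_Icc.inter_right (isClosed_singleton.preimage hf)
  have hne : (Icc a b ∩ f ⁻¹' {ε}).Nonempty := by
    obtain ⟨t, ht, hft⟩ := intermediate_value_Icc' hab hf.continuousOn
      (show ε ∈ Icc (f b) (f a) from ⟨hb.le, ha.le⟩)
    exact ⟨t, ht, hft⟩
  obtain ⟨s, ⟨hs, hfs⟩, hmin⟩ := hcl.exists_isLeast hne
  have hfs : f s = ε := hfs
  refine ⟨s, ⟨lt_of_le_of_ne hs.1 ?_, lt_of_le_of_ne hs.2 ?_⟩, hfs, fun t ht => ?_⟩
  · rintro rfl; linarith
  · rintro rfl; linarith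
  · by_contra hlt
    push Not at hlt
    obtain ⟨t', ht', hft⟩ := intermediate_value_Icc' ht.1 hf.continuousOn
      (show ε ∈ Icc (f t) (f a) from ⟨hlt.le, ha.le⟩)
    have h2 : s ≤ t' := hmin ⟨⟨ht'.1, by linarith [ht'.2, ht.2, hs.2]⟩, hft⟩
    have h3 : t = s := le_antisymm ht.2 (h2.trans ht'.2)
    rw [h3] at hlt
    linarith

theorem exists_last_exit' {f : ℝ → ℝ} (hf : Continuous f) {a b ε : ℝ} (hab : a ≤ b)
    (ha : f a < ε) (hb : ε < f b) : ∃ c ∈ Ioo a b, f c = ε ∧ ∀ t ∈ Icc c b, ε ≤ f t := by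
  obtain ⟨c, hc, h1, h2⟩ := exists_first_entry (f := fun t => f (-t)) (by fun_prop)
    (a := -b) (b := -a) (ε := ε) (by linarith) (by simpa using hb) (by simpa using ha)
  refine ⟨-c, ⟨by linarith [hc.2], by linarith [hc.1]⟩, h1, fun t ht => ?_⟩
  simpa using h2 (-t) ⟨by linarith [ht.2], by linarith [ht.1]⟩

theorem eventually_pos' : ∀ᶠ ε in 𝓝[>] (0 : ℝ), 0 < ε := self_mem_nhdsWithin

theorem eventually_lt_on_Icc {f : ℝ → ℝ} (hf : Continuous f) {a b : ℝ}
    (h : ∀ t ∈ Icc a b, 0 < f t) : ∀ᶠ ε in 𝓝[>] (0 : ℝ), ∀ t ∈ Icc a b, ε < f t := by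
  rcases (Icc a b).eq_empty_or_nonempty with he | hne
  · simp [he]
  obtain ⟨t₀, ht₀, hmin⟩ := isCompact_Icc.exists_isMinOn hne hf.continuousOn
  filter_upwards [nhdsWithin_le_nhds (gt_mem_nhds (h t₀ ht₀))] with ε hε t ht
  exact hε.trans_le (hmin ht)

theorem eventually_entry {f : ℝ → ℝ} (hf : Continuous f) (h1 : f 1 = 0)
    (h : ∀ t ∈ Ico (0 : ℝ) 1, 0 < f t) {δ : ℝ} (hδ : 0 < δ) :
    ∀ᶠ ε in 𝓝[>] (0 : ℝ), ∃ s ∈ Ioo (0 : ℝ) 1, f s = ε ∧ (∀ t ∈ Icc 0 s, ε ≤ f t) ∧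
      ∀ t ∈ Icc s 1, f t < δ := by
  obtain ⟨η, hη, hη'⟩ := Metric.continuous_iff.1 hf 1 δ hδ
  set τ := max 0 (1 - η / 2) with hτ
  have hτ1 : τ < 1 := max_lt one_pos (by linarith)
  have hτ0 : 0 ≤ τ := le_max_left _ _
  have hτ2 : 1 - η / 2 ≤ τ := le_max_right _ _
  filter_upwards [eventually_lt_on_Icc hf (a := 0) (b := τ)
    (fun t ht => h t ⟨ht.1, ht.2.trans_lt hτ1⟩), self_mem_nhdsWithin] with ε hε hε0
  have hε0 : 0 < ε := hε0
  obtain ⟨c, hc, h2, h3⟩ := exists_first_entry hf hτ1.le (hε τ (right_mem_Icc.2 hτ0))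
    (by rw [h1]; exact hε0)
  refine ⟨c, ⟨hτ0.trans_lt hc.1, hc.2⟩, h2, fun t ht => ?_, fun t ht => ?_⟩
  · rcases le_total t τ with h4 | h4
    · exact (hε t ⟨ht.1, h4⟩).le
    · exact h3 t ⟨h4, ht.2⟩
  · have := hη' t (by
      rw [Real.dist_eq, abs_lt]; constructor <;> linarith [ht.1, ht.2, hc.1])
    rw [h1, Real.dist_eq, sub_zero] at this
    exact (le_abs_self _).trans_lt this

/-- the star identity for two curves with the same end -/
theorem star_pair {f g : ℝ → ℂ} (hf : Continuous f) (hg : Continuous g) {q : ℂ} {s t ε : ℝ}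
    (hε : 0 < ε) (hs : s ∈ Ioo (0 : ℝ) 1) (ht : t ∈ Ioo (0 : ℝ) 1) (hf1 : f 1 = q) (hg1 : g 1 = q)
    (hfs : ‖f s - q‖ = ε) (hgt : ‖g t - q‖ = ε)
    (hf2 : ∀ x ∈ Icc 0 s, ε ≤ ‖f x - q‖) (hg2 : ∀ x ∈ Icc 0 t, ε ≤ ‖g x - q‖)
    (hf3 : ∀ x ∈ Icc s 1, ‖f x - q‖ < ‖g 0 - q‖) (hg3 : ∀ x ∈ Icc t 1, ‖g x - q‖ < ‖f 0 - q‖)
    (hd : ∀ x ∈ Icc 0 s, ∀ y ∈ Icc 0 t, g y ≠ f x) :
    var (fun x => g 0 - f x) 0 1 - var (fun x => g x - f 0) 0 1 =
      var (fun x => f x - q) 0 s - var (fun x => g x - q) 0 t +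
        (log (1 - (g t - q) / (f s - q)) - log (1 - (f s - q) / (g t - q))) := by
  have l0 : (0 : ℝ) ∈ Icc 0 s := left_mem_Icc.2 hs.1.le
  have l1 : s ∈ Icc 0 s := right_mem_Icc.2 hs.1.le
  have l2 : (0 : ℝ) ∈ Icc 0 t := left_mem_Icc.2 ht.1.le
  have l3 : t ∈ Icc 0 t := right_mem_Icc.2 ht.1.le
  have n1 : ∀ x ∈ Icc (0 : ℝ) 1, g 0 - f x ≠ 0 := by
    intro x hx h
    rcases le_total x s with h1 | h1
    · exact hd x ⟨hx.1, h1⟩ 0 l2 (sub_eq_zero.1 h)
    · have := hf3 x ⟨h1, hx.2⟩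
      rw [sub_eq_zero.1 h] at this
      exact lt_irrefl _ this
  have n2 : ∀ x ∈ Icc (0 : ℝ) 1, f 0 - g x ≠ 0 := by
    intro x hx h
    rcases le_total x t with h1 | h1
    · exact hd 0 l0 x ⟨hx.1, h1⟩ (sub_eq_zero.1 h).symm
    · have := hg3 x ⟨h1, hx.2⟩
      rw [sub_eq_zero.1 h] at this
      exact lt_irrefl _ this
  have e1 := var_add (f := fun x => g 0 - f x) hs.1.le hs.2.le (by fun_prop) n1
  have e2 := var_add (f := fun x => f 0 - g x) ht.1.le ht.2.le (by fun_prop) n2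
  have e3 := var_tail hs.2.le hf hf3 hf1
  have e4 := var_tail ht.2.le hg hg3 hg1
  have e5 := var_neg (f := fun x => f 0 - g x) zero_le_one (by fun_prop) n2
  have e6 := var_neg (f := fun x => f 0 - g x) ht.1.le (by fun_prop)
    (fun x hx => n2 x ⟨hx.1, hx.2.trans ht.2.le⟩)
  have e7 := var_rect hs.1.le ht.1.le hf hg hd
  have r1 : f s - q ≠ 0 := norm_pos_iff.1 (by rw [hfs]; exact hε)
  have r2 : g t - q ≠ 0 := norm_pos_iff.1 (by rw [hgt]; exact hε)
  have e8 := var_disc' (q := q) ht.1.le hg r1 (fun x hx => by rw [hfs]; exact hg2 x hx)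
    (fun x hx => by rw [add_sub_cancel]; exact hd s l1 x hx)
  have e9 := var_disc' (q := q) hs.1.le hf r2 (fun x hx => by rw [hgt]; exact hf2 x hx)
    (fun x hx => by rw [add_sub_cancel]; exact (hd x hx t l3).symm)
  have e10 := var_neg (f := fun x => f x - g t) hs.1.le (by fun_prop)
    (fun x hx => sub_ne_zero.2 (hd x hx t l3).symm)
  simp only [neg_sub, add_sub_cancel] at e5 e6 e8 e9 e10
  linear_combination e1 - e5 - e2 + e3 - e4 + e6 + e7 - e8 + e9 + e10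

variable {m n : ℕ}

/-- the set of double points of a system of curves -/
def Zset (γ : Fin m × Fin n → ℝ → ℂ) : Set ℂ :=
  {z | ∃ x y : (Fin m × Fin n) × ℝ, x.2 ∈ Ioo (0 : ℝ) 1 ∧ y.2 ∈ Ioo (0 : ℝ) 1 ∧ x ≠ y ∧
    γ x.1 x.2 = z ∧ γ y.1 y.2 = z}

/-- systems of curves with finitely many double points and no triple points -/
structure IsDr (p : Fin m → ℂ) (q : Fin n → ℂ) (γ : Fin m × Fin n → ℝ → ℂ) : Prop where
  cont : ∀ e, Continuous (γ e)
  zero : ∀ e, γ e 0 = p e.1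
  one : ∀ e, γ e 1 = q e.2
  avp : ∀ e a, ∀ t ∈ Ioo (0 : ℝ) 1, γ e t ≠ p a
  avq : ∀ e u, ∀ t ∈ Ioo (0 : ℝ) 1, γ e t ≠ q u
  fin : (Zset γ).Finite
  triple : ∀ x y w : (Fin m × Fin n) × ℝ, x.2 ∈ Ioo (0 : ℝ) 1 → y.2 ∈ Ioo (0 : ℝ) 1 →
    w.2 ∈ Ioo (0 : ℝ) 1 → γ x.1 x.2 = γ y.1 y.2 → γ x.1 x.2 = γ w.1 w.2 →
    x = y ∨ x = w ∨ y = w

theorem mem_Icc_cases {t : ℝ} (ht : t ∈ Icc (0 : ℝ) 1) : t = 0 ∨ t = 1 ∨ t ∈ Ioo (0 : ℝ) 1 := by
  rcases ht.1.eq_or_lt with h | h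
  · exact Or.inl h.symm
  rcases ht.2.eq_or_lt with h' | h'
  · exact Or.inr (Or.inl h')
  · exact Or.inr (Or.inr ⟨h, h'⟩)

theorem good_bound {p : Fin m → ℂ} {q : Fin n → ℂ} (hp : Function.Injective p)
    (hq : Function.Injective q) (hpq : ∀ a u, p a ≠ q u) {γ : Fin m × Fin n → ℝ → ℂ}
    (D : IsDr p q γ) (good : ∀ a b u, a ≠ b → ∀ s ∈ Ioo (0 : ℝ) 1, ∀ t ∈ Ioo (0 : ℝ) 1,
      γ (a, u) s ≠ γ (b, u) t) :
    (m / 2 * ((m - 1) / 2)) * (n / 2 * ((n - 1) / 2)) ≤ (Zset γ).ncard := by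
  classical
  let C : Fin n → Fin n → Finset (Fin m × Fin m) := fun u v => Finset.univ.filter fun x =>
    ∃ s ∈ Ioo (0 : ℝ) 1, ∃ t ∈ Ioo (0 : ℝ) 1, γ (x.1, u) s = γ (x.2, v) t
  have h1 := alg (fun u a b => (var (fun t => p b - γ (a, u) t) 0 1).im)
    (fun v a b => (var (fun t => γ (b, v) t - p a) 0 1).im) C ?_ ?_
  rotate_left
  · intro u v huv
    refine ⟨fun a => (var (fun t => q v - γ (a, u) t) 0 1).im,
      fun b => - (var (fun t => γ (b, v) t - q u) 0 1).im, fun a b hab hC => ?_⟩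
    have := var_rect zero_le_one zero_le_one (D.cont (a, u)) (D.cont (b, v)) fun s hs t ht h => by
      rcases mem_Icc_cases hs with rfl | rfl | hs' <;> rcases mem_Icc_cases ht with rfl | rfl | ht'
      · rw [D.zero, D.zero] at h; exact hab (hp h).symm
      · rw [D.zero, D.one] at h; exact hpq _ _ h.symm
      · rw [D.zero] at h; exact D.avp _ _ _ ht' h
      · rw [D.zero, D.one] at h; exact hpq _ _ h
      · rw [D.one, D.one] at h; exact huv (hq h).symm
      · rw [D.one] at h; exact D.avq _ _ _ ht' h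
      · rw [D.zero] at h; exact D.avp _ _ _ hs' h.symm
      · rw [D.one] at h; exact D.avq _ _ _ hs' h.symm
      · exact hC (Finset.mem_filter.2 ⟨Finset.mem_univ _, s, hs', t, ht', h.symm⟩)
    simp only [D.zero, D.one] at this
    have h2 := congrArg Complex.im this
    simp only [sub_im] at h2
    linarith
  · intro u
    obtain ⟨δ, hδ, hδ'⟩ : ∃ δ : ℝ, 0 < δ ∧ ∀ b, δ < ‖p b - q u‖ := by
      have : ∀ᶠ δ in 𝓝[>] (0 : ℝ), ∀ b, δ < ‖p b - q u‖ := eventually_all.2 fun b =>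
        nhdsWithin_le_nhds (gt_mem_nhds (norm_pos_iff.2 (sub_ne_zero.2 (hpq b u))))
      exact (eventually_pos'.and this).exists
    have hev : ∀ᶠ ε in 𝓝[>] (0 : ℝ), ∀ a, ∃ s ∈ Ioo (0 : ℝ) 1, ‖γ (a, u) s - q u‖ = ε ∧
        (∀ t ∈ Icc 0 s, ε ≤ ‖γ (a, u) t - q u‖) ∧ ∀ t ∈ Icc s 1, ‖γ (a, u) t - q u‖ < δ := by
      refine eventually_all.2 fun a => ?_
      have := D.cont (a, u)
      refine eventually_entry (f := fun t => ‖γ (a, u) t - q u‖) (by fun_prop)
        (by simp [D.one]) (fun t ht => norm_pos_iff.2 (sub_ne_zero.2 ?_)) hδ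
      rcases ht.1.eq_or_lt with h | h
      · rw [← h, D.zero]; exact hpq _ _
      · exact D.avq _ _ _ ⟨h, ht.2⟩
    obtain ⟨ε, hε, hs⟩ := (eventually_pos'.and hev).exists
    choose s hs h2 h3 h4 using hs
    have hne : ∀ a b, a ≠ b → arg (γ (a, u) (s a) - q u) ≠ arg (γ (b, u) (s b) - q u) := by
      intro a b hab h
      have := ext_norm_arg (by rw [h2, h2]) h
      exact good a b u hab _ (hs a) _ (hs b) (sub_left_injective this)
    refine ⟨fun a => (var (fun t => γ (a, u) t - q u) 0 (s a)).im - arg (γ (a, u) (s a) - q u)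
      + Real.pi, fun b => - (var (fun t => γ (b, u) t - q u) 0 (s b)).im +
        arg (γ (b, u) (s b) - q u), fun a => arg (γ (a, u) (s a) - q u), - (2 * Real.pi),
      neg_ne_zero.2 (by positivity), fun a b h => by_contra fun hab => hne a b hab h,
      fun a b hab => ?_⟩
    have e1 := star_pair (D.cont (a, u)) (D.cont (b, u)) hε (hs a) (hs b) (D.one _) (D.one _)
      (h2 a) (h2 b) (h3 a) (h3 b)
      (fun x hx => by rw [D.zero]; exact (h4 a x hx).trans (hδ' b))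
      (fun x hx => by rw [D.zero]; exact (h4 b x hx).trans (hδ' a))
      (fun x hx y hy h => by
        rcases hx.1.eq_or_lt with rfl | hx' <;> rcases hy.1.eq_or_lt with rfl | hy'
        · rw [D.zero, D.zero] at h; exact hab (hp h).symm
        · rw [D.zero] at h; exact D.avp _ _ _ ⟨hy', hy.2.trans_lt (hs b).2⟩ h
        · rw [D.zero] at h; exact D.avp _ _ _ ⟨hx', hx.2.trans_lt (hs a).2⟩ h.symm
        · exact good a b u hab _ ⟨hx', hx.2.trans_lt (hs a).2⟩ _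
            ⟨hy', hy.2.trans_lt (hs b).2⟩ h.symm)
    simp only [D.zero] at e1
    have e2 := congrArg Complex.im e1
    simp only [sub_im, add_im] at e2
    rw [arg_key' (norm_pos_iff.1 (by rw [h2]; exact hε)) (by rw [h2, h2])
      (hne b a (Ne.symm hab))] at e2
    dsimp only
    split_ifs at e2 ⊢ <;> linarith
  have h2 : ∑ x : {x : Fin n × Fin n // x.1 ≠ x.2}, (C x.1.1 x.1.2).card ≤
      2 * (Zset γ).ncard := by
    rw [← Finset.card_sigma, Set.ncard_eq_toFinset_card _ D.fin, ← Fintype.card_bool,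
      ← Finset.card_univ, ← Finset.card_product]
    have hc : ∀ z : (Σ _ : {x : Fin n × Fin n // x.1 ≠ x.2}, Fin m × Fin m), ∃ st : ℝ × ℝ,
        z.2 ∈ C z.1.1.1 z.1.1.2 → st.1 ∈ Ioo (0 : ℝ) 1 ∧ st.2 ∈ Ioo (0 : ℝ) 1 ∧
          γ (z.2.1, z.1.1.1) st.1 = γ (z.2.2, z.1.1.2) st.2 := by
      intro z
      by_cases h : z.2 ∈ C z.1.1.1 z.1.1.2
      · obtain ⟨s, hs, t, ht, h'⟩ := (Finset.mem_filter.1 h).2
        exact ⟨(s, t), fun _ => ⟨hs, ht, h'⟩⟩
      · exact ⟨0, fun h' => absurd h' h⟩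
    choose st hst using hc
    refine Finset.card_le_card_of_injOn
      (fun z => (decide (z.1.1.1 < z.1.1.2), γ (z.2.1, z.1.1.1) (st z).1)) ?_ ?_
    · intro z hz
      obtain ⟨k1, k2, k3⟩ := hst z (Finset.mem_sigma.1 hz).2
      simp only [Finset.coe_product, Finset.coe_univ, Set.mem_prod, Set.mem_univ, true_and,
        Set.Finite.coe_toFinset]
      refine ⟨((z.2.1, z.1.1.1), (st z).1), ((z.2.2, z.1.1.2), (st z).2), k1, k2, fun h => ?_,
        rfl, k3.symm⟩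
      exact z.1.2 (congrArg (fun x => x.1.2) h)
    · intro z hz z' hz' h
      obtain ⟨k1, k2, k3⟩ := hst z (Finset.mem_sigma.1 hz).2
      obtain ⟨k4, k5, k6⟩ := hst z' (Finset.mem_sigma.1 hz').2
      obtain ⟨⟨⟨u, v⟩, huv⟩, a, b⟩ := z
      obtain ⟨⟨⟨u', v'⟩, huv'⟩, a', b'⟩ := z'
      simp only [Prod.mk.injEq, decide_eq_decide] at h
      obtain ⟨k7, k8⟩ := h
      dsimp only at k3 k6 huv huv'
      have t1 := D.triple ((a, u), _) ((b, v), _) ((a', u'), _) k1 k2 k4 k3 k8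
      have t2 := D.triple ((a, u), _) ((b, v), _) ((b', v'), _) k1 k2 k5 k3 (k8.trans k6)
      simp only [Prod.mk.injEq] at t1 t2
      have : u = u' ∧ v = v' ∧ a = a' ∧ b = b' := by
        rcases t1 with t1 | t1 | t1
        · exact absurd t1.1.2 huv
        · rcases t2 with t2 | t2 | t2
          · exact absurd t2.1.2 huv
          · exact absurd (t1.1.2.symm.trans t2.1.2) huv'
          · exact ⟨t1.1.2, t2.1.2, t1.1.1, t2.1.1⟩
        · rcases t2 with t2 | t2 | t2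
          · exact absurd t2.1.2 huv
          · exfalso
            rw [← t1.1.2, ← t2.1.2] at k7
            rcases lt_or_gt_of_ne huv with h | h
            · exact lt_asymm h (k7.1 h)
            · exact lt_asymm h (k7.2 h)
          · exact absurd (t1.1.2.symm.trans t2.1.2) huv'
      obtain ⟨rfl, rfl, rfl, rfl⟩ := this
      rfl
  omega

end Vale.Agent.P040
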