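import Vale.Agent.P040.Lower

/-!
# The drawing of Zarankiewicz
-/

namespace Vale.Agent.P040

open Set

/-- reciprocals of the positions on the axes -/
def ξ (k : ℕ) : ℝ := (-2) ^ k

theorem ξ_ne (k : ℕ) : ξ k ≠ 0 := pow_ne_zero _ (by norm_num)

theorem abs_ξ (k : ℕ) : |ξ k| = 2 ^ k := by simp [ξ, abs_pow]

theorem ξ_inj : Function.Injective ξ := fun a b h => by
  have := congrArg abs h
  rw [abs_ξ, abs_ξ] at this
  exact pow_right_injective₀ (by norm_num) (by norm_num) this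

theorem ξ_mul {k : ℕ} {x : ℝ} (h : 0 < ξ k * x) : ξ k * x = 2 ^ k * |x| := by
  rw [← abs_of_pos h, abs_mul, abs_ξ]

theorem ξ_parity {a b : ℕ} {x : ℝ} (ha : 0 < ξ a * x) (hb : 0 < ξ b * x) : a % 2 = b % 2 := by
  have h : 0 < (-2 : ℝ) ^ (a + b) * (x * x) := by
    have := mul_pos ha hb
    rw [pow_add]
    simp only [ξ] at this
    linarith
  by_contra hne
  have h2 : Odd (a + b) := Nat.odd_iff.2 (by omega)
  have h3 : (-2 : ℝ) ^ (a + b) < 0 := h2.pow_neg (by norm_num)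
  nlinarith [mul_self_nonneg x]

/-- the straight segment between the two axes -/
noncomputable def seg (a u : ℕ) (t : unitInterval) : ℝ × ℝ := ((1 - t) / ξ a, t / ξ u)

theorem mem_range_seg {a u : ℕ} {y : ℝ × ℝ} :
    y ∈ range (seg a u) ↔ 0 ≤ ξ a * y.1 ∧ 0 ≤ ξ u * y.2 ∧ ξ a * y.1 + ξ u * y.2 = 1 := by
  have h1 := ξ_ne a
  have h2 := ξ_ne u
  constructor
  · rintro ⟨t, rfl⟩
    simp only [seg, mul_div_cancel₀ _ h1, mul_div_cancel₀ _ h2]
    exact ⟨by linarith [t.2.2], t.2.1, by ring⟩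
  · rintro ⟨k1, k2, k3⟩
    refine ⟨⟨ξ u * y.2, k2, by linarith⟩, Prod.ext ?_ ?_⟩
    · simp only [seg]
      field_simp
      linarith
    · simp only [seg]
      field_simp

theorem of_mem_openArc {a u : ℕ} {y : ℝ × ℝ} (h : y ∈ openArc (seg a u)) :
    0 < ξ a * y.1 ∧ 0 < ξ u * y.2 ∧ ξ a * y.1 + ξ u * y.2 = 1 := by
  have h1 := ξ_ne a
  have h2 := ξ_ne u
  obtain ⟨t, h3, h4, rfl⟩ := h
  simp only [seg, mul_div_cancel₀ _ h1, mul_div_cancel₀ _ h2]
  have k1 : (t : ℝ) < 1 := unitInterval.lt_one_iff_ne_one.2 h4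
  exact ⟨by linarith, unitInterval.pos_iff_ne_zero.2 h3, by ring⟩

theorem abs_eq_of_mem {a u : ℕ} {y : ℝ × ℝ} (h : y ∈ openArc (seg a u)) :
    0 < |y.1| ∧ 0 < |y.2| ∧ 2 ^ a * |y.1| + 2 ^ u * |y.2| = 1 := by
  obtain ⟨h1, h2, h3⟩ := of_mem_openArc h
  refine ⟨abs_pos.2 fun h => by simp [h] at h1, abs_pos.2 fun h => by simp [h] at h2, ?_⟩
  rw [← ξ_mul h1, ← ξ_mul h2, h3]

theorem lt_of_eqs {a u b v : ℕ} {X Y : ℝ} (hX : 0 < X) (hY : 0 < Y)
    (h1 : 2 ^ a * X + 2 ^ u * Y = 1) (h2 : 2 ^ b * X + 2 ^ v * Y = 1) (hab : a < b) : v < u := by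
  by_contra h
  have k1 : (2 : ℝ) ^ a < 2 ^ b := pow_lt_pow_right₀ (by norm_num) hab
  have k2 : (2 : ℝ) ^ u ≤ 2 ^ v := pow_le_pow_right₀ (by norm_num) (not_lt.1 h)
  nlinarith

theorem ne_of_eqs {a u b v : ℕ} {X Y : ℝ} (hX : 0 < X) (hY : 0 < Y)
    (h1 : 2 ^ a * X + 2 ^ u * Y = 1) (h2 : 2 ^ b * X + 2 ^ v * Y = 1) (h : ¬ (a = b ∧ u = v)) :
    a ≠ b := by
  rintro rfl
  rcases lt_trichotomy u v with h3 | h3 | h3
  · exact lt_irrefl _ (lt_of_eqs (a := u) (u := a) (b := v) (v := a) hY hX (by linarith)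
      (by linarith) h3)
  · exact h ⟨rfl, h3⟩
  · exact lt_irrefl _ (lt_of_eqs (a := v) (u := a) (b := u) (v := a) hY hX (by linarith)
      (by linarith) h3)

theorem tri {a u b v c w : ℕ} {X Y : ℝ} (hX : 0 < X) (hY : 0 < Y)
    (h1 : 2 ^ a * X + 2 ^ u * Y = 1) (h2 : 2 ^ b * X + 2 ^ v * Y = 1)
    (h3 : 2 ^ c * X + 2 ^ w * Y = 1) (hab : a < b) (hbc : b < c) : False := by
  have k1 : (2 : ℝ) ^ (b + 1) ≤ 2 ^ c := pow_le_pow_right₀ (by norm_num) hbc
  have k2 : (2 : ℝ) ^ (v + 1) ≤ 2 ^ u :=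
    pow_le_pow_right₀ (by norm_num) (lt_of_eqs hX hY h1 h2 hab)
  have k3 : (0 : ℝ) < 2 ^ a := by positivity
  have k4 : (0 : ℝ) < 2 ^ w := by positivity
  rw [pow_succ] at k1 k2
  nlinarith [mul_le_mul_of_nonneg_right k1 hX.le, mul_le_mul_of_nonneg_right k2 hY.le,
    mul_pos k3 hX, mul_pos k4 hY]

theorem det_ne {a u b v : ℕ} {y : ℝ × ℝ} (h1 : ξ a * y.1 + ξ u * y.2 = 1)
    (h2 : ξ b * y.1 + ξ v * y.2 = 1) (h : a ≠ b) : ξ a * ξ v - ξ b * ξ u ≠ 0 := by
  intro h0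
  apply h
  apply ξ_inj
  linear_combination y.2 * h0 + ξ b * h1 - ξ a * h2

/-- the intersection point of two lines -/
noncomputable def pt (a b v u : ℕ) : ℝ × ℝ :=
  ((ξ v - ξ u) / (ξ a * ξ v - ξ b * ξ u), (ξ a - ξ b) / (ξ a * ξ v - ξ b * ξ u))

theorem eq_pt {a u b v : ℕ} {y : ℝ × ℝ} (h1 : ξ a * y.1 + ξ u * y.2 = 1)
    (h2 : ξ b * y.1 + ξ v * y.2 = 1) (h : a ≠ b) : pt a b v u = y := by
  have := det_ne h1 h2 h
  refine Prod.ext ?_ ?_
  · simp only [pt]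
    rw [div_eq_iff this]
    linear_combination ξ u * h2 - ξ v * h1
  · simp only [pt]
    rw [div_eq_iff this]
    linear_combination ξ b * h1 - ξ a * h2

/-- pairs of the same parity -/
def pairs (m : ℕ) : Finset (ℕ × ℕ) :=
  (Finset.range m ×ˢ Finset.range m).filter fun x => x.1 < x.2 ∧ x.1 % 2 = x.2 % 2

theorem card_pairs (m : ℕ) : (pairs m).card ≤ zd m := by
  induction m with
  | zero => simp [pairs]
  | succ m ih =>
    have h1 : pairs (m + 1) ⊆ pairs m ∪ (Finset.range (m / 2)).image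
        fun k => (m % 2 + 2 * k, m) := by
      rintro ⟨a, b⟩ h
      simp only [pairs, Finset.mem_filter, Finset.mem_product, Finset.mem_range, Finset.mem_union,
        Finset.mem_image, Prod.mk.injEq] at h ⊢
      by_cases hb : b = m
      · exact Or.inr ⟨a / 2, by omega, by omega, hb.symm⟩
      · exact Or.inl ⟨⟨by omega, by omega⟩, h.2⟩
    have h2 := (Finset.card_le_card h1).trans (Finset.card_union_le _ _)
    have h3 := Finset.card_image_le (s := Finset.range (m / 2))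
      (f := fun k => (m % 2 + 2 * k, m))
    rw [Finset.card_range] at h3
    have h4 : zd (m + 1) = zd m + m / 2 := by
      simp only [zd, Nat.add_sub_cancel]
      rcases Nat.eq_zero_or_pos m with rfl | hm
      · simp
      · rw [show (m + 1) / 2 = (m - 1) / 2 + 1 by omega]
        ring
    omega

/-- the affine map sending two lines to the axes -/
noncomputable def aff (a u b v : ℝ) (h : a * v - b * u ≠ 0) : (ℝ × ℝ) ≃ₜ (ℝ × ℝ) where
  toFun y := (a * y.1 + u * y.2 - 1, b * y.1 + v * y.2 - 1)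
  invFun y := ((v * (y.1 + 1) - u * (y.2 + 1)) / (a * v - b * u),
    (a * (y.2 + 1) - b * (y.1 + 1)) / (a * v - b * u))
  left_inv y := by
    refine Prod.ext ?_ ?_ <;> simp only <;> rw [div_eq_iff h] <;> ring
  right_inv y := by
    have h1 := mul_inv_cancel₀ h
    refine Prod.ext ?_ ?_ <;> simp only [div_eq_mul_inv]
    · linear_combination (y.1 + 1) * h1
    · linear_combination (y.2 + 1) * h1
  continuous_toFun := by fun_prop
  continuous_invFun := by fun_prop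

theorem crossAt_seg {a u b v : ℕ} {x : ℝ × ℝ} (h1 : x ∈ openArc (seg a u))
    (h2 : x ∈ openArc (seg b v)) (h : a ≠ b) : CrossAt (seg a u) (seg b v) x := by
  obtain ⟨k1, k2, k3⟩ := of_mem_openArc h1
  obtain ⟨k4, k5, k6⟩ := of_mem_openArc h2
  have hO : IsOpen {y : ℝ × ℝ | (0 < ξ a * y.1 ∧ 0 < ξ u * y.2) ∧
      (0 < ξ b * y.1 ∧ 0 < ξ v * y.2)} :=
    ((isOpen_lt continuous_const (by fun_prop)).and
      (isOpen_lt continuous_const (by fun_prop))).and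
      ((isOpen_lt continuous_const (by fun_prop)).and (isOpen_lt continuous_const (by fun_prop)))
  refine ⟨(aff (ξ a) (ξ u) (ξ b) (ξ v) (det_ne k3 k6 h)).toOpenPartialHomeomorph.restrOpen _ hO,
    ⟨mem_univ _, ⟨k1, k2⟩, k4, k5⟩, ?_, fun y hy => ?_⟩
  · change (ξ a * x.1 + ξ u * x.2 - 1, ξ b * x.1 + ξ v * x.2 - 1) = 0
    rw [k3, k6, sub_self]
    rfl
  · obtain ⟨-, ⟨l1, l2⟩, l3, l4⟩ := hy
    change (_ ↔ ξ a * y.1 + ξ u * y.2 - 1 = 0) ∧ (_ ↔ ξ b * y.1 + ξ v * y.2 - 1 = 0)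
    rw [mem_range_seg, mem_range_seg, sub_eq_zero, sub_eq_zero]
    exact ⟨⟨fun h => h.2.2, fun h => ⟨l1.le, l2.le, h⟩⟩,
      ⟨fun h => h.2.2, fun h => ⟨l3.le, l4.le, h⟩⟩⟩

theorem upper (m n : ℕ) : ∃ D : Drawing (completeBipartiteGraph (Fin m) (Fin n)),
    D.Proper ∧ D.crossings ≤ zd m * zd n := by
  classical
  let E := Equiv.ofBijective _ (ed_bijective (m := m) (n := n))
  let arc : (completeBipartiteGraph (Fin m) (Fin n)).edgeSet → unitInterval → ℝ × ℝ :=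
    fun e => seg (E.symm e).1 (E.symm e).2
  have hne : ∀ e f x, e ≠ f → x ∈ openArc (arc e) → x ∈ openArc (arc f) →
      ((E.symm e).1 : ℕ) ≠ (E.symm f).1 := by
    intro e f x hef h1 h2
    obtain ⟨k1, k2, k3⟩ := abs_eq_of_mem h1
    exact ne_of_eqs k1 k2 k3 (abs_eq_of_mem h2).2.2 fun h =>
      hef (E.symm.injective (Prod.ext (Fin.ext h.1) (Fin.ext h.2)))
  have hsub : meetings arc ⊆
      ((pairs m ×ˢ pairs n).image fun x => pt x.1.1 x.1.2 x.2.1 x.2.2 : Finset (ℝ × ℝ)) := by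
    have key : ∀ e f x, x ∈ openArc (arc e) → x ∈ openArc (arc f) →
        ((E.symm e).1 : ℕ) < (E.symm f).1 → x ∈ ((pairs m ×ˢ pairs n).image
          fun x => pt x.1.1 x.1.2 x.2.1 x.2.2 : Finset (ℝ × ℝ)) := by
      intro e f x h1 h2 h
      obtain ⟨k1, k2, k3⟩ := of_mem_openArc h1
      obtain ⟨k4, k5, k6⟩ := of_mem_openArc h2
      obtain ⟨k7, k8, k9⟩ := abs_eq_of_mem h1
      refine Finset.mem_image.2 ⟨(((E.symm e).1, (E.symm f).1), ((E.symm f).2, (E.symm e).2)),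
        ?_, eq_pt k3 k6 h.ne⟩
      simp only [pairs, Finset.mem_product, Finset.mem_filter, Finset.mem_range, Fin.is_lt,
        true_and]
      exact ⟨⟨h, ξ_parity k1 k4⟩, lt_of_eqs k7 k8 k9 (abs_eq_of_mem h2).2.2 h, ξ_parity k5 k2⟩
    rintro x ⟨e, f, hef, h1, h2⟩
    rcases lt_or_gt_of_ne (hne e f x hef h1 h2) with h | h
    · exact key e f x h1 h2 h
    · exact key f e x h2 h1 h
  refine ⟨⟨Sum.elim (fun a => ((ξ a)⁻¹, 0)) (fun u => (0, (ξ u)⁻¹)), arc, ?_, fun e => ?_,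
    fun e => ?_, fun e => ?_, fun e v h => ?_, (Finset.finite_toSet _).subset hsub,
    fun e f g x h1 h2 h3 => ?_⟩, fun e f x hef h1 h2 => crossAt_seg h1 h2 (hne e f x hef h1 h2),
    ?_⟩
  · rintro (a | u) (b | v) h <;> simp only [Sum.elim_inl, Sum.elim_inr, Prod.mk.injEq] at h
    · exact congrArg _ (Fin.ext (ξ_inj (inv_injective h.1)))
    · exact absurd h.1 (inv_ne_zero (ξ_ne _))
    · exact absurd h.2 (inv_ne_zero (ξ_ne _))
    · exact congrArg _ (Fin.ext (ξ_inj (inv_injective h.2)))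
  · simp only [arc]
    unfold seg
    fun_prop
  · intro s t h
    have := congrArg Prod.snd h
    simp only [arc, seg] at this
    exact Subtype.ext ((div_left_inj' (ξ_ne _)).1 this)
  · obtain ⟨e, rfl⟩ := E.surjective e
    simp only [arc, Equiv.symm_apply_apply]
    simp [E, ed, seg]
  · obtain ⟨k1, k2, -⟩ := of_mem_openArc h
    rcases v with a | u
    · simp at k2
    · simp at k1
  · by_contra hcon
    push Not at hcon
    have n1 := hne e f x hcon.1 h1 h2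
    have n2 := hne e g x hcon.2.1 h1 h3
    have n3 := hne f g x hcon.2.2 h2 h3
    obtain ⟨k1, k2, k3⟩ := abs_eq_of_mem h1
    have k4 := (abs_eq_of_mem h2).2.2
    have k5 := (abs_eq_of_mem h3).2.2
    rcases lt_or_gt_of_ne n1 with l1 | l1 <;> rcases lt_or_gt_of_ne n2 with l2 | l2 <;>
      rcases lt_or_gt_of_ne n3 with l3 | l3
    · exact tri k1 k2 k3 k4 k5 l1 l3
    · exact tri k1 k2 k3 k5 k4 l2 l3
    · omega
    · exact tri k1 k2 k5 k3 k4 l2 l1
    · exact tri k1 k2 k4 k3 k5 l1 l2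
    · omega
    · exact tri k1 k2 k4 k5 k3 l3 l2
    · exact tri k1 k2 k5 k4 k3 l3 l1
  · refine (ncard_le_ncard hsub (Finset.finite_toSet _)).trans ?_
    rw [ncard_coe_finset]
    refine Finset.card_image_le.trans ?_
    rw [Finset.card_product]
    exact Nat.mul_le_mul (card_pairs m) (card_pairs n)

end Vale.Agent.P040
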